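import Mathlib

/-! P343, module M8a: arithmetic. -/

namespace Vale.Agent.P343

/-- A crude polynomial bound for the primes. -/
theorem exists_primes : ∃ C : ℕ, ∀ m : ℕ, 1 ≤ m → ∃ p : ℕ → ℕ,
    (∀ l < m, (p l).Prime) ∧ (∀ l < m, ∀ l' < m, p l = p l' → l = l') ∧
    ∀ l < m, p l ≤ C * m ^ 2 := by
  refine ⟨64, fun m hm => ⟨fun l => Nat.nth Nat.Prime l, fun l _ => Nat.prime_nth_prime l,
    fun l _ l' _ h => Nat.nth_injective Nat.infinite_setOfPred_prime h, fun l hl => ?_⟩⟩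
  have hm1 : (1 : ℝ) ≤ m := by exact_mod_cast hm
  have key : (m : ℝ) ≤ Nat.primeCounting (64 * m ^ 2) := by
    refine le_trans ?_ (Chebyshev.pi_ge (64 * m ^ 2))
    have hn : (1 : ℝ) < ((64 * m ^ 2 : ℕ) : ℝ) := by push_cast; nlinarith
    rw [le_div_iff₀ (Real.log_pos hn)]
    have h1 : Real.log ((64 * m ^ 2 : ℕ) : ℝ) ≤ 16 * m := by
      have h2 : ((64 * m ^ 2 : ℕ) : ℝ) = (8 * (m : ℝ)) ^ 2 := by push_cast; ring
      rw [h2, Real.log_pow]
      have := Real.log_le_sub_one_of_pos (show (0 : ℝ) < 8 * m by positivity)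
      push_cast
      linarith
    have h3 : Real.log (((64 * m ^ 2 : ℕ) : ℝ) + 1) ≤ 18 * m := by
      have h2 : ((64 * m ^ 2 : ℕ) : ℝ) + 1 ≤ (8 * (m : ℝ) + 1) ^ 2 := by push_cast; nlinarith
      refine (Real.log_le_log (by positivity) h2).trans ?_
      rw [Real.log_pow]
      have := Real.log_le_sub_one_of_pos (show (0 : ℝ) < 8 * m + 1 by positivity)
      push_cast
      linarith
    have h4 := Real.log_two_gt_d9
    have h5 : (m : ℝ) * Real.log ((64 * m ^ 2 : ℕ) : ℝ) ≤ m * (16 * m) := by gcongr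
    have h6 : 64 * (m : ℝ) ^ 2 * 0.6931471803 ≤ ((64 * m ^ 2 : ℕ) : ℝ) * Real.log 2 := by
      push_cast
      nlinarith [sq_nonneg (m : ℝ)]
    nlinarith
  have key2 : m ≤ Nat.primeCounting (64 * m ^ 2) := by exact_mod_cast key
  have h7 : l < Nat.count Nat.Prime (64 * m ^ 2 + 1) := lt_of_lt_of_le hl key2
  exact Nat.lt_succ_iff.1 (Nat.nth_lt_of_lt_count h7)

/-- The final numerical step. -/
theorem final_arith (L k : ℕ)
    (h : (6 * (L + 1)) ^ (L + 2) ≤ (3 * Nat.log 2 (2 * (k + 1))) ^ (L + 2) * (2 * (k + 1))) :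
    2 ^ L ≤ k := by
  by_contra hcon
  push Not at hcon
  have h1 : 2 * (k + 1) ≤ 2 ^ (L + 1) := by rw [pow_succ]; omega
  have h2 : Nat.log 2 (2 * (k + 1)) ≤ L + 1 := by
    have := Nat.log_mono_right (b := 2) h1
    rwa [Nat.log_pow (by norm_num)] at this
  have h3 : (3 * Nat.log 2 (2 * (k + 1))) ^ (L + 2) * (2 * (k + 1)) ≤
      (3 * (L + 1)) ^ (L + 2) * 2 ^ (L + 1) := by gcongr
  have h4 : (6 * (L + 1)) ^ (L + 2) = (3 * (L + 1)) ^ (L + 2) * 2 ^ (L + 2) := by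
    rw [← mul_pow]; congr 1; ring
  have h5 : 0 < (3 * (L + 1)) ^ (L + 2) := by positivity
  have h6 : (3 * (L + 1)) ^ (L + 2) * 2 ^ (L + 2) ≤ (3 * (L + 1)) ^ (L + 2) * 2 ^ (L + 1) := by
    rw [← h4]; exact h.trans h3
  have h7 := Nat.le_of_mul_le_mul_left h6 h5
  have h8 : 2 ^ (L + 1) < 2 ^ (L + 2) := Nat.pow_lt_pow_right (by norm_num) (by omega)
  omega

end Vale.Agent.P343
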