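import Mathlib

/-!
P343, module M1: the monoid of two-way behaviours.
A label is (direction, state), `true` = moving right, `false` = moving left.
A behaviour relates an entry label to an exit label.
-/

namespace Vale.Agent.P343

/-- A label: direction (`true` moving right, `false` moving left) and state. -/
abbrev Lab (Q : Type) : Type := Bool × Q

/-- A two-way behaviour. -/
abbrev Beh (Q : Type) : Type := Lab Q → Lab Q → Prop

namespace Beh

variable {Q : Type}

theorem ext {F G : Beh Q} (h : ∀ x y, F x y ↔ G x y) : F = G := by
  funext x y; exact propext (h x y)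

theorem finite [Finite Q] : Finite (Beh Q) := inferInstance

end Beh

variable {Q : Type}

/-- `Mid B x y`: the head is at the boundary between two blocks, the block met when moving in
direction `d` is `B d`; from label `x` it finally leaves the two blocks with label `y`. -/
inductive Mid (B : Bool → Beh Q) : Lab Q → Lab Q → Prop
  | exit {d q q'} : B d (d, q) (d, q') → Mid B (d, q) (d, q')
  | back {d q q' y} : B d (d, q) (!d, q') → Mid B (!d, q') y → Mid B (d, q) y

/-- The product behaviour of two blocks, `B false` the left block and `B true` the right one. -/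
inductive Star (B : Bool → Beh Q) : Lab Q → Lab Q → Prop
  | bounce {d q q'} : B (!d) (d, q) (!d, q') → Star B (d, q) (!d, q')
  | enter {d q q' y} : B (!d) (d, q) (d, q') → Mid B (d, q') y → Star B (d, q) y

/-- Two blocks, `F` left and `G` right, as a function of the direction. -/
def two (F G : Beh Q) : Bool → Beh Q := fun d => cond d G F

/-- `two'` relative to a side `b`: `F` lies on side `b` and `G` on side `!b`. -/
def sided (b : Bool) (F G : Beh Q) : Bool → Beh Q := fun d => if d = b then F else G

/-- Three blocks `B false`, `F`, `B true`; `b` names the inner boundary next to `B b`. -/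
inductive T3 (B : Bool → Beh Q) (F : Beh Q) : Bool → Lab Q → Lab Q → Prop
  | out {b q q'} : B b (b, q) (b, q') → T3 B F b (b, q) (b, q')
  | outback {b q q' y} : B b (b, q) (!b, q') → T3 B F b (!b, q') y → T3 B F b (b, q) y
  | thru {b q q' y} : F (!b, q) (!b, q') → T3 B F (!b) (!b, q') y → T3 B F b (!b, q) y
  | inback {b q q' y} : F (!b, q) (b, q') → T3 B F b (b, q') y → T3 B F b (!b, q) y

/-- The product of three blocks. -/
inductive S3 (B : Bool → Beh Q) (F : Beh Q) : Lab Q → Lab Q → Prop
  | bounce {d q q'} : B (!d) (d, q) (!d, q') → S3 B F (d, q) (!d, q')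
  | enter {d q q' y} : B (!d) (d, q) (d, q') → T3 B F (!d) (d, q') y → S3 B F (d, q) y

/-- At boundary `b`, the two-block system in which `F` is merged with `B (!b)`. -/
def Bp (B : Bool → Beh Q) (F : Beh Q) (b : Bool) : Bool → Beh Q :=
  fun d => if d = b then B b else Star (sided b F (B (!b)))

theorem sided_self (b : Bool) (F G : Beh Q) : sided b F G b = F := by simp [sided]

theorem sided_not (b : Bool) (F G : Beh Q) : sided b F G (!b) = G := by simp [sided]

theorem Bp_self (B : Bool → Beh Q) (F : Beh Q) (b : Bool) : Bp B F b b = B b := by simp [Bp]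

theorem Bp_not (B : Bool → Beh Q) (F : Beh Q) (b : Bool) :
    Bp B F b (!b) = Star (sided b F (B (!b))) := by
  unfold Bp
  rw [if_neg (by cases b <;> simp)]

/-- Decomposition of a three-block run relative to the grouping at boundary `b`. -/
theorem T3_dec (B : Bool → Beh Q) (F : Beh Q) (b : Bool) {c : Bool} {x y : Lab Q}
    (h : T3 B F c x y) :
    (c = b → Mid (Bp B F b) x y) ∧
    (c = !b → ∃ z, Mid (sided b F (B (!b))) x z ∧
      ((z.1 = (!b) ∧ y = z) ∨ (z.1 = b ∧ Mid (Bp B F b) z y))) := by
  induction h with
  | @out c q q' h =>
    refine ⟨?_, ?_⟩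
    · rintro rfl
      exact Mid.exit (by rw [Bp_self]; exact h)
    · rintro rfl
      exact ⟨(!b, q'), Mid.exit (by rw [sided_not]; exact h), Or.inl ⟨rfl, rfl⟩⟩
  | @outback c q q' y h _ ih =>
    refine ⟨?_, ?_⟩
    · rintro rfl
      exact Mid.back (by rw [Bp_self]; exact h) (ih.1 rfl)
    · rintro rfl
      obtain ⟨z, hz, hz'⟩ := ih.2 rfl
      exact ⟨z, Mid.back (by rw [sided_not]; exact h) hz, hz'⟩
  | @thru c q q' y h _ ih =>
    refine ⟨?_, ?_⟩
    · rintro rfl
      obtain ⟨z, hz, hz'⟩ := ih.2 rfl
      have hs : Star (sided c F (B (!c))) (!c, q) z := by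
        refine Star.enter (q' := q') ?_ hz
        rw [Bool.not_not, sided_self]; exact h
      rcases hz' with ⟨h1, rfl⟩ | ⟨h1, h2⟩
      · obtain ⟨z1, z2⟩ := y
        simp only at h1
        subst h1
        exact Mid.exit (by rw [Bp_not]; exact hs)
      · obtain ⟨z1, z2⟩ := z
        simp only at h1
        subst h1
        refine Mid.back (d := !z1) (q' := z2) ?_ ?_
        · rw [Bp_not, Bool.not_not]; exact hs
        · rw [Bool.not_not]; exact h2
    · rintro rfl
      rw [Bool.not_not] at h ih ⊢
      refine ⟨(b, q'), Mid.exit (by rw [sided_self]; exact h), Or.inr ⟨rfl, ih.1 rfl⟩⟩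
  | @inback c q q' y h _ ih =>
    refine ⟨?_, ?_⟩
    · rintro rfl
      refine Mid.back (d := !c) (q' := q') ?_ ?_
      · rw [Bp_not, Bool.not_not]
        have := Star.bounce (B := sided c F (B (!c))) (d := !c) (q := q) (q' := q')
          (by rw [Bool.not_not, sided_self]; exact h)
        rw [Bool.not_not] at this
        exact this
      · rw [Bool.not_not]; exact ih.1 rfl
    · rintro rfl
      rw [Bool.not_not] at h ⊢
      obtain ⟨z, hz, hz'⟩ := ih.2 rfl
      exact ⟨z, Mid.back (by rw [sided_self]; exact h) hz, hz'⟩

theorem T3_of_inner (B : Bool → Beh Q) (F : Beh Q) (b : Bool) {x z : Lab Q}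
    (h : Mid (sided b F (B (!b))) x z) :
    (z.1 = (!b) → T3 B F (!b) x z) ∧ (∀ y, z.1 = b → T3 B F b z y → T3 B F (!b) x y) := by
  induction h with
  | @exit d q q' h =>
    refine ⟨?_, ?_⟩
    · rintro rfl
      rw [sided_not] at h
      exact T3.out h
    · rintro y rfl h2
      rw [sided_self] at h
      have := T3.thru (B := B) (F := F) (b := !d) (q := q) (q' := q') (y := y)
        (by rw [Bool.not_not]; exact h) (by rw [Bool.not_not]; exact h2)
      rw [Bool.not_not] at this
      exact this
  | @back d q q' y h _ ih =>
    rcases Bool.eq_or_eq_not d b with rfl | rfl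
    · rw [sided_self] at h
      refine ⟨fun hy => ?_, fun w hy hw => ?_⟩
      · have := T3.inback (B := B) (F := F) (b := !d) (q := q) (q' := q') (y := y)
          (by rw [Bool.not_not]; exact h) (ih.1 hy)
        rw [Bool.not_not] at this
        exact this
      · have := T3.inback (B := B) (F := F) (b := !d) (q := q) (q' := q') (y := w)
          (by rw [Bool.not_not]; exact h) (ih.2 w hy hw)
        rw [Bool.not_not] at this
        exact this
    · rw [sided_not] at h
      refine ⟨fun hy => T3.outback h (ih.1 hy), fun w hy hw => T3.outback h (ih.2 w hy hw)⟩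

theorem T3_of_star (B : Bool → Beh Q) (F : Beh Q) (b : Bool) {q : Q} {z : Lab Q}
    (h : Star (sided b F (B (!b))) (!b, q) z) :
    (z.1 = (!b) → T3 B F b (!b, q) z) ∧ (∀ y, z.1 = b → T3 B F b z y → T3 B F b (!b, q) y) := by
  cases h with
  | @bounce _ _ q' h =>
    rw [Bool.not_not, sided_self] at h
    refine ⟨fun hy => ?_, fun w hy hw => ?_⟩
    · simp at hy
    · rw [Bool.not_not] at hw
      exact T3.inback h hw
  | @enter _ _ q' _ h h2 =>
    rw [Bool.not_not, sided_self] at h
    have h3 := T3_of_inner B F b h2
    exact ⟨fun hy => T3.thru h (h3.1 hy), fun w hy hw => T3.thru h (h3.2 w hy hw)⟩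

theorem T3_of_mid (B : Bool → Beh Q) (F : Beh Q) (b : Bool) {x y : Lab Q}
    (h : Mid (Bp B F b) x y) : T3 B F b x y := by
  induction h with
  | @exit d q q' h =>
    rcases Bool.eq_or_eq_not d b with rfl | rfl
    · rw [Bp_self] at h
      exact T3.out h
    · rw [Bp_not] at h
      exact (T3_of_star B F b h).1 rfl
  | @back d q q' y h _ ih =>
    rcases Bool.eq_or_eq_not d b with rfl | rfl
    · rw [Bp_self] at h
      exact T3.outback h ih
    · rw [Bp_not, Bool.not_not] at h
      rw [Bool.not_not] at ih
      exact (T3_of_star B F b h).2 y rfl ih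

theorem T3_iff_mid (B : Bool → Beh Q) (F : Beh Q) (b : Bool) {x y : Lab Q} :
    T3 B F b x y ↔ Mid (Bp B F b) x y :=
  ⟨fun h => (T3_dec B F b h).1 rfl, T3_of_mid B F b⟩

theorem T3_iff_inner (B : Bool → Beh Q) (F : Beh Q) (b : Bool) {x y : Lab Q} :
    T3 B F (!b) x y ↔ ∃ z, Mid (sided b F (B (!b))) x z ∧
      ((z.1 = (!b) ∧ y = z) ∨ (z.1 = b ∧ T3 B F b z y)) := by
  constructor
  · intro h
    obtain ⟨z, hz, hz'⟩ := (T3_dec B F b h).2 rfl
    refine ⟨z, hz, hz'.imp id (fun h => ⟨h.1, (T3_iff_mid B F b).2 h.2⟩)⟩
  · rintro ⟨z, hz, ⟨h1, rfl⟩ | ⟨h1, h2⟩⟩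
    · exact (T3_of_inner B F b hz).1 h1
    · exact (T3_of_inner B F b hz).2 y h1 h2

theorem S3_iff (B : Bool → Beh Q) (F : Beh Q) (b : Bool) {x y : Lab Q} :
    S3 B F x y ↔ Star (Bp B F b) x y := by
  obtain ⟨d, q⟩ := x
  rcases Bool.eq_or_eq_not d b with rfl | rfl
  · -- first block entered is merged
    constructor
    · intro h
      cases h with
      | @bounce _ _ q' h =>
        refine Star.bounce ?_
        rw [Bp_not]
        exact Star.bounce (by rw [sided_not]; exact h)
      | @enter _ _ q' _ h h2 =>
        obtain ⟨z, hz, hz'⟩ := (T3_iff_inner B F d).1 h2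
        have hs : Star (sided d F (B (!d))) (d, q) z :=
          Star.enter (by rw [sided_not]; exact h) hz
        rcases hz' with ⟨h1, rfl⟩ | ⟨h1, h3⟩
        · obtain ⟨y1, y2⟩ := y
          simp only at h1
          subst h1
          exact Star.bounce (by rw [Bp_not]; exact hs)
        · obtain ⟨z1, z2⟩ := z
          simp only at h1
          subst h1
          exact Star.enter (by rw [Bp_not]; exact hs) ((T3_iff_mid B F z1).1 h3)
    · intro h
      cases h with
      | @bounce _ _ q' h =>
        rw [Bp_not] at h
        cases h with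
        | bounce h => rw [sided_not] at h; exact S3.bounce h
        | @enter _ _ q'' _ h h2 =>
          rw [sided_not] at h
          exact S3.enter h ((T3_iff_inner B F d).2 ⟨_, h2, Or.inl ⟨rfl, rfl⟩⟩)
      | @enter _ _ q' _ h h2 =>
        rw [Bp_not] at h
        generalize hz : ((d, q') : Lab Q) = z at h
        cases h with
        | bounce h =>
          exfalso
          have := congrArg Prod.fst hz
          simp at this
        | @enter _ _ q'' _ h h3 =>
          subst hz
          rw [sided_not] at h
          exact S3.enter h ((T3_iff_inner B F d).2 ⟨_, h3, Or.inr ⟨rfl, (T3_iff_mid B F d).2 h2⟩⟩)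
  · -- first block entered is the outer block `B b`
    constructor
    · intro h
      cases h with
      | bounce h =>
        refine Star.bounce ?_
        rw [Bool.not_not] at h ⊢
        rw [Bp_self]; exact h
      | enter h h2 =>
        rw [Bool.not_not] at h h2
        refine Star.enter ?_ ((T3_iff_mid B F b).1 h2)
        rw [Bool.not_not, Bp_self]; exact h
    · intro h
      cases h with
      | bounce h =>
        refine S3.bounce ?_
        rw [Bool.not_not] at h ⊢
        rw [Bp_self] at h; exact h
      | enter h h2 =>
        rw [Bool.not_not, Bp_self] at h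
        refine S3.enter (by rw [Bool.not_not]; exact h) ?_
        rw [Bool.not_not]
        exact (T3_iff_mid B F b).2 h2

/-- The identity behaviour. -/
instance : One (Beh Q) := ⟨fun x y => x = y⟩

/-- The product of behaviours: left block, then right block. -/
instance : Mul (Beh Q) := ⟨fun F G => Star (two F G)⟩

theorem one_def (x y : Lab Q) : (1 : Beh Q) x y ↔ x = y := Iff.rfl

theorem mul_def (F G : Beh Q) : F * G = Star (two F G) := rfl

theorem two_true (F G : Beh Q) : two F G true = G := rfl

theorem two_false (F G : Beh Q) : two F G false = F := rfl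

theorem sided_true (F G : Beh Q) : sided true F G = two G F := by
  funext d; cases d <;> rfl

theorem sided_false (F G : Beh Q) : sided false F G = two F G := by
  funext d; cases d <;> rfl

theorem Bp_true (P F S : Beh Q) : Bp (two P S) F true = two (P * F) S := by
  funext d; cases d
  · have h := Bp_not (two P S) F true
    rw [Bool.not_true] at h
    rw [h, sided_true]; rfl
  · rw [Bp_self]; rfl

theorem Bp_false (P F S : Beh Q) : Bp (two P S) F false = two P (F * S) := by
  funext d; cases d
  · rw [Bp_self]; rfl
  · have h := Bp_not (two P S) F false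
    rw [Bool.not_false] at h
    rw [h, sided_false]; rfl

/-- Three-block description of a product, grouping on the left. -/
theorem mul_left_iff (P F S : Beh Q) (x y : Lab Q) :
    (P * F * S) x y ↔ S3 (two P S) F x y := by
  rw [S3_iff (two P S) F true, Bp_true, mul_def (P * F) S]

/-- Three-block description of a product, grouping on the right. -/
theorem mul_right_iff (P F S : Beh Q) (x y : Lab Q) :
    (P * (F * S)) x y ↔ S3 (two P S) F x y := by
  rw [S3_iff (two P S) F false, Bp_false, mul_def P (F * S)]

theorem mul_assoc' (P F S : Beh Q) : P * F * S = P * (F * S) := by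
  refine Beh.ext fun x y => ?_
  rw [mul_left_iff, mul_right_iff]

theorem one_mul' (F : Beh Q) : 1 * F = F := by
  have key : ∀ x y, Mid (two 1 F) x y → (x.1 = true → F x y) ∧ (x.1 = false → x = y) := by
    intro x y h
    induction h with
    | @exit d q q' h =>
      cases d
      · exact ⟨by simp, fun _ => h⟩
      · exact ⟨fun _ => h, by simp⟩
    | @back d q q' y h _ ih =>
      cases d
      · have h' : ((false, q) : Lab Q) = (true, q') := h
        simp at h'
      · refine ⟨fun _ => ?_, by simp⟩
        have := ih.2 rfl
        rw [← this]; exact h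
  refine Beh.ext fun x y => ?_
  constructor
  · intro h
    cases h with
    | @bounce d q q' h =>
      cases d
      · exact h
      · have h' : ((true, q) : Lab Q) = (false, q') := h
        simp at h'
    | @enter d q q' _ h h2 =>
      cases d
      · have := (key _ _ h2).2 rfl
        rw [← this]; exact h
      · have h' : ((true, q) : Lab Q) = (true, q') := h
        rw [h']
        exact (key _ _ h2).1 rfl
  · intro h
    obtain ⟨d, q⟩ := x
    obtain ⟨e, q'⟩ := y
    cases d
    · cases e
      · exact Star.enter (q' := q') h (Mid.exit (B := two 1 F) (d := false) (show ((false, q') : Lab Q) = (false, q') from rfl))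
      · exact Star.bounce (B := two 1 F) (d := false) h
    · cases e
      · exact Star.enter (B := two 1 F) (d := true) (q' := q) (show ((true, q) : Lab Q) = (true, q) from rfl)
          (Mid.back (B := two 1 F) (d := true) h (Mid.exit (B := two 1 F) (d := false) (show ((false, q') : Lab Q) = (false, q') from rfl)))
      · exact Star.enter (B := two 1 F) (d := true) (q' := q) (show ((true, q) : Lab Q) = (true, q) from rfl)
          (Mid.exit (B := two 1 F) (d := true) h)

theorem mul_one' (F : Beh Q) : F * 1 = F := by
  have key : ∀ x y, Mid (two F 1) x y → (x.1 = false → F x y) ∧ (x.1 = true → x = y) := by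
    intro x y h
    induction h with
    | @exit d q q' h =>
      cases d
      · exact ⟨fun _ => h, by simp⟩
      · exact ⟨by simp, fun _ => h⟩
    | @back d q q' y h _ ih =>
      cases d
      · refine ⟨fun _ => ?_, by simp⟩
        have := ih.2 rfl
        rw [← this]; exact h
      · have h' : ((true, q) : Lab Q) = (false, q') := h
        simp at h'
  refine Beh.ext fun x y => ?_
  constructor
  · intro h
    cases h with
    | @bounce d q q' h =>
      cases d
      · have h' : ((false, q) : Lab Q) = (true, q') := h
        simp at h'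
      · exact h
    | @enter d q q' _ h h2 =>
      cases d
      · have h' : ((false, q) : Lab Q) = (false, q') := h
        rw [h']
        exact (key _ _ h2).1 rfl
      · have := (key _ _ h2).2 rfl
        rw [← this]; exact h
  · intro h
    obtain ⟨d, q⟩ := x
    obtain ⟨e, q'⟩ := y
    cases d
    · cases e
      · exact Star.enter (B := two F 1) (d := false) (q' := q) (show ((false, q) : Lab Q) = (false, q) from rfl)
          (Mid.exit (B := two F 1) (d := false) h)
      · exact Star.enter (B := two F 1) (d := false) (q' := q) (show ((false, q) : Lab Q) = (false, q) from rfl)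
          (Mid.back (B := two F 1) (d := false) h (Mid.exit (B := two F 1) (d := true) (show ((true, q') : Lab Q) = (true, q') from rfl)))
    · cases e
      · exact Star.bounce (B := two F 1) (d := true) h
      · exact Star.enter (q' := q') h (Mid.exit (B := two F 1) (d := true) (show ((true, q') : Lab Q) = (true, q') from rfl))

instance : Monoid (Beh Q) where
  mul_assoc := mul_assoc'
  one_mul := one_mul'
  mul_one := mul_one'

/-- A functional (deterministic) behaviour. -/
def Fn (F : Beh Q) : Prop := ∀ x y z, F x y → F x z → y = z

theorem Fn.one : Fn (1 : Beh Q) := by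
  intro x y z h1 h2
  exact Eq.trans (Eq.symm h1) h2

theorem Mid.fn {B : Bool → Beh Q} (hB : ∀ d, Fn (B d)) : ∀ {x y z : Lab Q},
    Mid B x y → Mid B x z → y = z := by
  intro x y z h
  induction h generalizing z with
  | @exit d q q' h =>
    intro h2
    cases h2 with
    | exit h2 => exact hB _ _ _ _ h h2
    | back h2 _ =>
      have := hB _ _ _ _ h h2
      simp at this
  | @back d q q' y h _ ih =>
    intro h2
    cases h2 with
    | exit h2 =>
      have := hB _ _ _ _ h h2
      simp at this
    | back h2 h3 =>
      have := hB _ _ _ _ h h2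
      simp at this
      subst this
      exact ih h3

theorem Star.fn {B : Bool → Beh Q} (hB : ∀ d, Fn (B d)) : Fn (Star B) := by
  intro x y z h1 h2
  cases h1 with
  | bounce h1 =>
    cases h2 with
    | bounce h2 => exact hB _ _ _ _ h1 h2
    | enter h2 _ =>
      have := hB _ _ _ _ h1 h2
      simp at this
  | enter h1 h1' =>
    cases h2 with
    | bounce h2 =>
      have := hB _ _ _ _ h1 h2
      simp at this
    | enter h2 h2' =>
      have := hB _ _ _ _ h1 h2
      simp at this
      subst this
      exact Mid.fn hB h1' h2'

theorem Fn.two {F G : Beh Q} (hF : Fn F) (hG : Fn G) : ∀ d, Fn (two F G d) := by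
  intro d; cases d <;> assumption

theorem Fn.mul {F G : Beh Q} (hF : Fn F) (hG : Fn G) : Fn (F * G) :=
  Star.fn (Fn.two hF hG)

end Vale.Agent.P343
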