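import Vale.Agent.P343.Defs
import Vale.Agent.P343.Beh

/-! P343, module M2: every 2DFA with `k` states has a behaviour morphism over `k + 1`
states. -/

namespace Vale.Agent.P343

namespace Bridge

variable {α : Type}

/-- The behaviour of one cell, from the state in which the head arrives on it.
`none` is the state accepted, which moves right forever. -/
inductive Cell (A : TwoNFA α) (a : Sym α) : A.State → Lab (Option A.State) → Prop
  | acc {q} : q ∈ A.accept → Cell A a q (true, none)
  | stay {q q' y} : q ∉ A.accept → (q', Move.stay) ∈ A.trans q a → Cell A a q' y → Cell A a q y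
  | left {q q'} : q ∉ A.accept → (q', Move.left) ∈ A.trans q a → Cell A a q (false, some q')
  | right {q q'} : q ∉ A.accept → (q', Move.right) ∈ A.trans q a → Cell A a q (true, some q')

/-- The behaviour of one cell. -/
def beta (A : TwoNFA α) (a : Sym α) : Beh (Option A.State) := fun x y =>
  match x.2 with
  | none => y = (true, none)
  | some q => Cell A a q y

theorem beta_none (A : TwoNFA α) (a : Sym α) (d : Bool) (y : Lab (Option A.State)) :
    beta A a (d, none) y ↔ y = (true, none) := Iff.rfl

theorem beta_some (A : TwoNFA α) (a : Sym α) (d : Bool) (q : A.State)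
    (y : Lab (Option A.State)) : beta A a (d, some q) y ↔ Cell A a q y := Iff.rfl

theorem Cell.fn {A : TwoNFA α} (hA : A.Deterministic) {a : Sym α} {q : A.State}
    {y : Lab (Option A.State)} (h : Cell A a q y) : ∀ {z}, Cell A a q z → y = z := by
  induction h with
  | acc h =>
    intro z hz
    cases hz with
    | acc _ => rfl
    | stay h' _ _ => exact absurd h h'
    | left h' _ => exact absurd h h'
    | right h' _ => exact absurd h h'
  | stay h1 h2 _ ih =>
    intro z hz
    cases hz with
    | acc h' => exact absurd h' h1
    | stay _ h2' h3' =>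
      have := hA _ _ h2 h2'
      simp only [Prod.mk.injEq, and_true] at this
      subst this
      exact ih h3'
    | left _ h' =>
      have := hA _ _ h2 h'
      simp at this
    | right _ h' =>
      have := hA _ _ h2 h'
      simp at this
  | left h1 h2 =>
    intro z hz
    cases hz with
    | acc h' => exact absurd h' h1
    | stay _ h' _ =>
      have := hA _ _ h2 h'
      simp at this
    | left _ h' =>
      have := hA _ _ h2 h'
      simp only [Prod.mk.injEq, and_true] at this
      rw [this]
    | right _ h' =>
      have := hA _ _ h2 h'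
      simp at this
  | right h1 h2 =>
    intro z hz
    cases hz with
    | acc h' => exact absurd h' h1
    | stay _ h' _ =>
      have := hA _ _ h2 h'
      simp at this
    | left _ h' =>
      have := hA _ _ h2 h'
      simp at this
    | right _ h' =>
      have := hA _ _ h2 h'
      simp only [Prod.mk.injEq, and_true] at this
      rw [this]

theorem beta_fn {A : TwoNFA α} (hA : A.Deterministic) (a : Sym α) : Fn (beta A a) := by
  rintro ⟨d, q⟩ y z hy hz
  cases q with
  | none => rw [beta_none] at hy hz; rw [hy, hz]
  | some q => exact Cell.fn hA hy hz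

/-- The behaviour of a list of cells. -/
def cells (A : TwoNFA α) (l : List (Sym α)) : Beh (Option A.State) := (l.map (beta A)).prod

theorem cells_nil (A : TwoNFA α) : cells A [] = 1 := rfl

theorem cells_cons (A : TwoNFA α) (a : Sym α) (l : List (Sym α)) :
    cells A (a :: l) = beta A a * cells A l := by
  simp [cells]

theorem cells_append (A : TwoNFA α) (l m : List (Sym α)) :
    cells A (l ++ m) = cells A l * cells A m := by
  simp [cells]

theorem cells_fn {A : TwoNFA α} (hA : A.Deterministic) (l : List (Sym α)) :
    Fn (cells A l) := by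
  induction l with
  | nil => exact Fn.one
  | cons a l ih => rw [cells_cons]; exact Fn.mul (beta_fn hA a) ih

/-- Runs on a zipper: `ls` is the reversed list of the cells on the left of the head boundary,
`rs` the cells on its right. -/
inductive Run (A : TwoNFA α) : List (Sym α) → Lab (Option A.State) → List (Sym α) →
    Lab (Option A.State) → Prop
  | exitR {ls q} : Run A ls (true, q) [] (true, q)
  | exitL {rs q} : Run A [] (false, q) rs (false, q)
  | rr {ls a rs q q' y} : beta A a (true, q) (true, q') → Run A (a :: ls) (true, q') rs y →
      Run A ls (true, q) (a :: rs) y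
  | rl {ls a rs q q' y} : beta A a (true, q) (false, q') → Run A ls (false, q') (a :: rs) y →
      Run A ls (true, q) (a :: rs) y
  | lr {ls a rs q q' y} : beta A a (false, q) (true, q') → Run A (a :: ls) (true, q') rs y →
      Run A (a :: ls) (false, q) rs y
  | ll {ls a rs q q' y} : beta A a (false, q) (false, q') → Run A ls (false, q') (a :: rs) y →
      Run A (a :: ls) (false, q) rs y

theorem mid_left_iff {Q : Type} (P F S : Beh Q) (x y : Lab Q) :
    Mid (two P (F * S)) x y ↔ T3 (two P S) F false x y := by
  rw [T3_iff_mid, Bp_false]

theorem mid_right_iff {Q : Type} (P F S : Beh Q) (x y : Lab Q) :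
    Mid (two (P * F) S) x y ↔ T3 (two P S) F true x y := by
  rw [T3_iff_mid, Bp_true]

/-- a zipper run is a run of the two-block system -/
theorem Run.mid {A : TwoNFA α} {ls rs : List (Sym α)} {x y : Lab (Option A.State)}
    (h : Run A ls x rs y) : Mid (two (cells A ls.reverse) (cells A rs)) x y := by
  induction h with
  | @exitR ls q => exact Mid.exit (d := true) (show (1 : Beh _) _ _ from rfl)
  | @exitL rs q => exact Mid.exit (d := false) (show (1 : Beh _) _ _ from rfl)
  | @rr ls a rs q q' y h _ ih =>
    rw [List.reverse_cons, cells_append, cells_cons, cells_nil, mul_one, mid_right_iff] at ih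
    rw [cells_cons, mid_left_iff]
    exact T3.thru (b := false) h ih
  | @rl ls a rs q q' y h _ ih =>
    rw [cells_cons, mid_left_iff] at ih ⊢
    exact T3.inback (b := false) h ih
  | @lr ls a rs q q' y h _ ih =>
    rw [List.reverse_cons, cells_append, cells_cons, cells_nil, mul_one, mid_right_iff] at ih ⊢
    exact T3.inback (b := true) h ih
  | @ll ls a rs q q' y h _ ih =>
    rw [cells_cons, mid_left_iff] at ih
    rw [List.reverse_cons, cells_append, cells_cons, cells_nil, mul_one, mid_right_iff]
    exact T3.thru (b := true) h ih

/-- lifting the behaviour of a segment to zipper runs -/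
theorem lift (A : TwoNFA α) (u : List (Sym α)) : ∀ (x y : Lab (Option A.State)),
    cells A u x y → ∀ (ls rs : List (Sym α)) (z : Lab (Option A.State)),
      ((y.1 = true → Run A (u.reverse ++ ls) y rs z) →
       (y.1 = false → Run A ls y (u ++ rs) z) →
        (x.1 = true → Run A ls x (u ++ rs) z) ∧
        (x.1 = false → Run A (u.reverse ++ ls) x rs z)) := by
  induction u with
  | nil =>
    intro x y h ls rs z h1 h2
    have hxy : x = y := h
    subst hxy
    exact ⟨fun hx => h1 hx, fun hx => h2 hx⟩
  | cons a v ih =>
    intro x y h ls rs z h1 h2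
    rw [cells_cons, mul_def] at h
    simp only [List.reverse_cons, List.append_assoc, List.cons_append, List.nil_append] at h1 h2 ⊢
    -- the middle runs
    have key : ∀ x' y', Mid (two (beta A a) (cells A v)) x' y' →
        (y'.1 = true → Run A (v.reverse ++ a :: ls) y' rs z) →
        (y'.1 = false → Run A ls y' (a :: (v ++ rs)) z) → Run A (a :: ls) x' (v ++ rs) z := by
      intro x' y' hm
      induction hm with
      | @exit d q q' hm =>
        intro h1 h2
        cases d
        · exact Run.ll hm (h2 rfl)
        · exact (ih _ _ hm (a :: ls) rs z (fun _ => h1 rfl) (fun h => by simp at h)).1 rfl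
      | @back d q q' y hm _ ih2 =>
        intro h1 h2
        cases d
        · exact Run.lr hm (ih2 h1 h2)
        · exact (ih _ _ hm (a :: ls) rs z (fun h => by simp at h) (fun _ => ih2 h1 h2)).1 rfl
    cases h with
    | @bounce d q q' h =>
      cases d
      · -- entering `v` from the right and bouncing
        refine ⟨fun hx => by simp at hx, fun _ => ?_⟩
        exact (ih _ _ h (a :: ls) rs z (fun _ => h1 rfl) (fun h => by simp at h)).2 rfl
      · exact ⟨fun _ => Run.rl h (h2 rfl), fun hx => by simp at hx⟩
    | @enter d q q' _ h hm =>
      cases d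
      · refine ⟨fun hx => by simp at hx, fun _ => ?_⟩
        exact (ih _ _ h (a :: ls) rs z (fun h => by simp at h) (fun _ => key _ _ hm h1 h2)).2 rfl
      · exact ⟨fun _ => Run.rr h (key _ _ hm h1 h2), fun hx => by simp at hx⟩

/-- the behaviour of the whole tape as zipper run -/
theorem run_of_cells (A : TwoNFA α) (u : List (Sym α)) (q q' : Option A.State)
    (h : cells A u (true, q) (true, q')) : Run A [] (true, q) u (true, q') := by
  have := (lift A u _ _ h [] [] (true, q') (fun _ => Run.exitR) (fun h => by simp at h)).1 rfl
  simpa using this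

theorem mid_one {Q : Type} {F : Beh Q} {x y : Lab Q} (h : Mid (two 1 F) x y) :
    (x.1 = true → F x y) ∧ (x.1 = false → x = y) := by
  induction h with
  | @exit d q q' h =>
    cases d
    · exact ⟨by simp, fun _ => h⟩
    · exact ⟨fun _ => h, by simp⟩
  | @back d q q' y h _ ih =>
    cases d
    · have h' : ((false, q) : Lab Q) = (true, q') := h
      simp at h'
    · refine ⟨fun _ => ?_, by simp⟩
      have := ih.2 rfl
      rw [← this]; exact h

theorem cells_of_run (A : TwoNFA α) (u : List (Sym α)) (q : Option A.State)
    (y : Lab (Option A.State)) (h : Run A [] (true, q) u y) : cells A u (true, q) y :=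
  (mid_one h.mid).1 rfl

/-- the accepted state moves right to the end -/
theorem run_none (A : TwoNFA α) (rs : List (Sym α)) : ∀ ls : List (Sym α),
    Run A ls (true, none) rs (true, none) := by
  induction rs with
  | nil => intro ls; exact Run.exitR
  | cons a rs ih => intro ls; exact Run.rr rfl (ih _)

/-- inversion on a cell entered from the left -/
theorem run_inv {A : TwoNFA α} {ls rs : List (Sym α)} {a : Sym α} {q : Option A.State}
    {y : Lab (Option A.State)} (h : Run A ls (true, q) (a :: rs) y) :
    (∃ q', beta A a (true, q) (true, q') ∧ Run A (a :: ls) (true, q') rs y) ∨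
    (∃ q', beta A a (true, q) (false, q') ∧ Run A ls (false, q') (a :: rs) y) := by
  cases h with
  | rr h1 h2 => exact Or.inl ⟨_, h1, h2⟩
  | rl h1 h2 => exact Or.inr ⟨_, h1, h2⟩

/-- the direction of entry does not matter -/
theorem run_swap {A : TwoNFA α} {ls rs : List (Sym α)} {a : Sym α} {q : A.State}
    {y : Lab (Option A.State)} (h : Run A ls (true, some q) (a :: rs) y) :
    Run A (a :: ls) (false, some q) rs y := by
  rcases run_inv h with ⟨q', h1, h2⟩ | ⟨q', h1, h2⟩
  · exact Run.lr h1 h2
  · exact Run.ll h1 h2

/-- an accepting computation gives a zipper run -/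
theorem run_of_accepts (A : TwoNFA α) (w : List α) (h : A.Accepts w) :
    Run A [] (true, some A.start) (TwoNFA.tape w) (true, none) := by
  obtain ⟨qf, hqf, i, hr⟩ := h
  have hacc : ∀ q ∈ A.accept, ∀ ls a rs, Run A ls (true, some q) (a :: rs) (true, none) :=
    fun q hq ls a rs => Run.rr (q' := none) (Cell.acc hq) (run_none A rs _)
  have key : ∀ c : A.State × ℕ, Relation.ReflTransGen (TwoNFA.Step A w) c (qf, i) →
      ∀ ls a rs, TwoNFA.tape w = ls.reverse ++ a :: rs → c.2 = ls.length →
        Run A ls (true, some c.1) (a :: rs) (true, none) := by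
    intro c hc
    induction hc using Relation.ReflTransGen.head_induction_on with
    | refl => intro ls a rs _ _; exact hacc qf hqf ls a rs
    | @head c c' hstep _ ih =>
      intro ls a rs ht hlen
      by_cases hq : c.1 ∈ A.accept
      · exact hacc _ hq ls a rs
      · have hcell : ∀ j b, (TwoNFA.tape w)[j]? = some b → j = ls.length → b = a := by
          intro j b hb hj
          rw [ht, hj, ← List.length_reverse (as := ls), List.getElem?_append_right le_rfl] at hb
          simp at hb
          exact hb.symm
        cases hstep with
        | @left q q' j b hb htr =>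
          have hba := hcell _ _ hb hlen
          subst hba
          cases ls with
          | nil => simp at hlen
          | cons b' ls' =>
            have h1 := ih ls' b' (b :: rs) (by rw [ht]; simp) (by simpa using hlen)
            exact Run.rl (q' := some q') (Cell.left hq htr) (run_swap h1)
        | @stay q q' j b hb htr =>
          have hba := hcell _ _ hb hlen
          subst hba
          have h1 := ih ls b rs ht hlen
          rcases run_inv h1 with ⟨q'', h2, h3⟩ | ⟨q'', h2, h3⟩
          · exact Run.rr (Cell.stay hq htr h2) h3
          · exact Run.rl (Cell.stay hq htr h2) h3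
        | @right q q' j b hb htr =>
          have hba := hcell _ _ hb hlen
          subst hba
          cases rs with
          | nil =>
            exfalso
            have h2 : (TwoNFA.tape w).getLast? = some b := by rw [ht]; simp
            have h3 : (TwoNFA.tape w).getLast? = some Sym.rend := by
              rw [TwoNFA.tape, ← List.cons_append, List.getLast?_append]; simp
            rw [h2] at h3
            have h4 : b = Sym.rend := by simpa using h3
            subst h4
            exact A.rend_right _ _ htr
          | cons c rs' =>
            have h1 := ih (b :: ls) c rs' (by rw [ht]; simp) (by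
              change j + 1 = _
              simp only [List.length_cons]
              have : j = ls.length := hlen
              omega)
            exact Run.rr (q' := some q') (Cell.right hq htr) h1
  exact key (A.start, 0) hr [] Sym.lend _ rfl rfl

/-- a cell behaviour is a computation on this cell -/
theorem cell_run {A : TwoNFA α} {w : List α} {a : Sym α} {q : A.State}
    {y : Lab (Option A.State)} (h : Cell A a q y) (i : ℕ) (hi : (TwoNFA.tape w)[i]? = some a) :
    (y = (true, none) ∧ ∃ q' ∈ A.accept,
      Relation.ReflTransGen (TwoNFA.Step A w) (q, i) (q', i)) ∨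
    (∃ q', y = (true, some q') ∧ Relation.ReflTransGen (TwoNFA.Step A w) (q, i) (q', i + 1)) ∨
    (∃ q' j, y = (false, some q') ∧ i = j + 1 ∧
      Relation.ReflTransGen (TwoNFA.Step A w) (q, i) (q', j)) := by
  induction h with
  | @acc q hq => exact Or.inl ⟨rfl, q, hq, Relation.ReflTransGen.refl⟩
  | @stay q q' y _ htr _ ih =>
    have hs : TwoNFA.Step A w (q, i) (q', i) := TwoNFA.Step.stay hi htr
    rcases ih with ⟨h1, q'', h2, h3⟩ | ⟨q'', h1, h2⟩ | ⟨q'', j, h1, h2, h3⟩
    · exact Or.inl ⟨h1, q'', h2, Relation.ReflTransGen.head hs h3⟩
    · exact Or.inr (Or.inl ⟨q'', h1, Relation.ReflTransGen.head hs h2⟩)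
    · exact Or.inr (Or.inr ⟨q'', j, h1, h2, Relation.ReflTransGen.head hs h3⟩)
  | @left q q' _ htr =>
    cases i with
    | zero =>
      exfalso
      have : a = Sym.lend := by
        simp [TwoNFA.tape] at hi
        exact hi.symm
      subst this
      exact A.lend_left _ _ htr
    | succ j =>
      exact Or.inr (Or.inr ⟨q', j, rfl, rfl,
        Relation.ReflTransGen.single (TwoNFA.Step.left hi htr)⟩)
  | @right q q' _ htr =>
    exact Or.inr (Or.inl ⟨q', rfl, Relation.ReflTransGen.single (TwoNFA.Step.right hi htr)⟩)

/-- a zipper run ending in the accepted state gives an accepting computation -/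
theorem accepts_of_run {A : TwoNFA α} {w : List α} {ls rs : List (Sym α)}
    {x y : Lab (Option A.State)} (h : Run A ls x rs y) (hy : y = (true, none)) :
    TwoNFA.tape w = ls.reverse ++ rs → ∀ q, x.2 = some q →
      ∃ q' ∈ A.accept, ∃ i, Relation.ReflTransGen (TwoNFA.Step A w)
        (q, if x.1 then ls.length else ls.length - 1) (q', i) := by
  -- one cell
  have hone : ∀ (ls : List (Sym α)) (a : Sym α) (rs : List (Sym α)),
      TwoNFA.tape w = ls.reverse ++ a :: rs → (TwoNFA.tape w)[ls.length]? = some a := by
    intro ls a rs ht
    rw [ht, ← List.length_reverse (as := ls), List.getElem?_append_right le_rfl]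
    simp
  induction h with
  | @exitR ls q =>
    intro _ q' hq'
    simp only [Prod.mk.injEq, true_and] at hy
    rw [hy] at hq'
    simp at hq'
  | @exitL rs q => simp at hy
  | @rr ls a rs q q' y h _ ih =>
    intro ht q0 hq0
    simp only at hq0
    subst hq0
    have ht2 : TwoNFA.tape w = (a :: ls).reverse ++ rs := by rw [ht]; simp
    rcases cell_run (w := w) h ls.length (hone ls a rs ht) with
      ⟨_, q'', h2, h3⟩ | ⟨q'', h1, h2⟩ | ⟨q'', j, h1, h2, h3⟩
    · exact ⟨q'', h2, _, h3⟩
    · simp only [Prod.mk.injEq, true_and] at h1
      obtain ⟨qf, hqf, i, hr⟩ := ih hy ht2 q'' h1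
      exact ⟨qf, hqf, i, h2.trans hr⟩
    · simp at h1
  | @rl ls a rs q q' y h _ ih =>
    intro ht q0 hq0
    simp only at hq0
    subst hq0
    rcases cell_run (w := w) h ls.length (hone ls a rs ht) with
      ⟨h1, _⟩ | ⟨q'', h1, h2⟩ | ⟨q'', j, h1, h2, h3⟩
    · simp at h1
    · simp at h1
    · simp only [Prod.mk.injEq, true_and] at h1
      obtain ⟨qf, hqf, i, hr⟩ := ih hy ht q'' h1
      refine ⟨qf, hqf, i, h3.trans ?_⟩
      have : ls.length - 1 = j := by omega
      simpa [this] using hr
  | @lr ls a rs q q' y h _ ih =>
    intro ht q0 hq0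
    simp only at hq0
    subst hq0
    have ht2 : TwoNFA.tape w = ls.reverse ++ a :: rs := by rw [ht]; simp
    rcases cell_run (w := w) h ls.length (hone ls a rs ht2) with
      ⟨_, q'', h2, h3⟩ | ⟨q'', h1, h2⟩ | ⟨q'', j, h1, h2, h3⟩
    · exact ⟨q'', h2, _, by simpa using h3⟩
    · simp only [Prod.mk.injEq, true_and] at h1
      obtain ⟨qf, hqf, i, hr⟩ := ih hy ht q'' h1
      refine ⟨qf, hqf, i, ?_⟩
      simpa using h2.trans hr
    · simp at h1
  | @ll ls a rs q q' y h _ ih =>
    intro ht q0 hq0
    simp only at hq0
    subst hq0
    have ht2 : TwoNFA.tape w = ls.reverse ++ a :: rs := by rw [ht]; simp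
    rcases cell_run (w := w) h ls.length (hone ls a rs ht2) with
      ⟨h1, _⟩ | ⟨q'', h1, h2⟩ | ⟨q'', j, h1, h2, h3⟩
    · simp at h1
    · simp at h1
    · simp only [Prod.mk.injEq, true_and] at h1
      obtain ⟨qf, hqf, i, hr⟩ := ih hy ht2 q'' h1
      refine ⟨qf, hqf, i, ?_⟩
      have : ls.length - 1 = j := by omega
      have h4 : Relation.ReflTransGen (TwoNFA.Step A w) (q0, ls.length) (qf, i) := by
        refine h3.trans ?_
        simpa [this] using hr
      simpa using h4

/-- acceptance in terms of the behaviour of the tape -/
theorem language_iff (A : TwoNFA α) (w : List α) :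
    w ∈ A.language ↔ cells A (TwoNFA.tape w) (true, some A.start) (true, none) := by
  constructor
  · intro h
    exact cells_of_run A _ _ _ (run_of_accepts A w h)
  · intro h
    have h1 := run_of_cells A _ _ _ h
    obtain ⟨q', hq', i, hr⟩ := accepts_of_run (w := w) h1 rfl rfl A.start rfl
    exact ⟨q', hq', i, hr⟩

end Bridge

open Bridge in
theorem exists_beh {α : Type} (A : TwoNFA α) (hA : A.Deterministic) :
    ∃ (Q : Type) (_ : Finite Q) (μ : List α → Beh Q), Nat.card Q = A.size + 1 ∧ μ [] = 1 ∧
      (∀ u v, μ (u ++ v) = μ u * μ v) ∧ (∀ u, Fn (μ u)) ∧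
      ∀ u v, μ u = μ v → (u ∈ A.language ↔ v ∈ A.language) := by
  have := A.finite
  refine ⟨Option A.State, inferInstance, fun w => cells A (w.map Sym.letter), ?_, ?_, ?_, ?_, ?_⟩
  · rw [Finite.card_option]; rfl
  · rfl
  · intro u v
    change cells A ((u ++ v).map Sym.letter) = _
    rw [List.map_append, cells_append]
  · intro u; exact cells_fn hA _
  · intro u v huv
    have htape : ∀ w : List α, cells A (TwoNFA.tape w) =
        beta A Sym.lend * (cells A (w.map Sym.letter) * cells A [Sym.rend]) := by
      intro w
      rw [TwoNFA.tape, cells_cons, cells_append]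
    simp only at huv
    rw [language_iff, language_iff, htape, htape, huv]

end Vale.Agent.P343
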