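import Mathlib

/-! P343, module M7a: counting lemmas. -/

namespace Vale.Agent.P343

/-- A point moved by few of the `p l`-parts of a cyclic group of permutations. -/
theorem prime_parts {M : Type} [Finite M] (π : Equiv.Perm M) (N : ℕ) (hN : 0 < N)
    (hπ : π ^ N = 1) (m : ℕ) (p : ℕ → ℕ) (hp : ∀ l < m, (p l).Prime)
    (hinj : ∀ l < m, ∀ l' < m, p l = p l' → l = l') (η : M) :
    {l | l < m ∧ (π ^ (N / (p l) ^ (N.factorization (p l)))) η ≠ η}.ncard ≤
      Nat.log 2 (Nat.card M) := by
  classical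
  have := Fintype.ofFinite M
  set c := Function.minimalPeriod π η with hc
  have hper : ∀ k : ℕ, (π ^ k) η = η ↔ c ∣ k := by
    intro k
    rw [hc, ← Function.isPeriodicPt_iff_minimalPeriod_dvd, Function.IsPeriodicPt,
      Function.IsFixedPt, Equiv.Perm.iterate_eq_pow]
  have hcN : c ∣ N := (hper N).1 (by rw [hπ]; rfl)
  have hc0 : 0 < c := Nat.pos_of_dvd_of_pos hcN hN
  have hcM : c ≤ Nat.card M := by
    rw [Nat.card_eq_fintype_card]
    have hinj' : Set.InjOn (fun k : ℕ => (π^[k]) η) (Finset.range c : Set ℕ) := by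
      intro a ha b hb hab
      rw [Finset.coe_range, Set.mem_Iio] at ha hb
      exact (Function.iterate_injOn_Iio_minimalPeriod (f := π) (x := η)) ha hb hab
    have := Finset.card_le_card_of_injOn (t := (Finset.univ : Finset M))
      (fun k : ℕ => (π^[k]) η) (fun _ _ => Finset.mem_univ _) hinj'
    simpa using this
  -- injection to prime factors
  have h1 : {l | l < m ∧ (π ^ (N / (p l) ^ (N.factorization (p l)))) η ≠ η}.ncard ≤
      c.primeFactors.card := by
    rw [← Set.ncard_coe_finset]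
    refine Set.ncard_le_ncard_of_injOn p ?_ ?_ (Finset.finite_toSet _)
    · rintro l ⟨hl, hmv⟩
      have hpl := hp l hl
      rw [Finset.mem_coe, Nat.mem_primeFactors]
      refine ⟨hpl, ?_, hc0.ne'⟩
      by_contra hnd
      apply hmv
      rw [hper]
      have hcop : Nat.Coprime c (p l ^ N.factorization (p l)) :=
        Nat.Coprime.pow_right _ ((Nat.Prime.coprime_iff_not_dvd hpl).2 hnd).symm
      have h2 : c ∣ p l ^ N.factorization (p l) * (N / p l ^ N.factorization (p l)) := by
        rw [Nat.mul_div_cancel' (Nat.ordProj_dvd N (p l))]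
        exact hcN
      exact hcop.dvd_of_dvd_mul_left h2
    · rintro l ⟨hl, -⟩ l' ⟨hl', -⟩ h
      exact hinj l hl l' hl' h
  refine h1.trans ?_
  apply Nat.le_log_of_pow_le (by norm_num)
  calc 2 ^ c.primeFactors.card ≤ ∏ q ∈ c.primeFactors, q := by
        apply Finset.pow_card_le_prod
        intro q hq
        exact (Nat.prime_of_mem_primeFactors hq).two_le
    _ ≤ c := Nat.le_of_dvd hc0 (Nat.prod_primeFactors_dvd c)
    _ ≤ _ := hcM

/-- Conjugating a partial map by a permutation changes it in few places. -/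
theorem conj_diff {M : Type} [Finite M] (f : M → Option M) (σ : Equiv.Perm M) :
    {η | (f (σ η)).map σ.symm ≠ f η}.ncard ≤
      2 * {η | f η ≠ some η ∧ σ η ≠ η}.ncard +
      {η | f η ≠ some η ∧ ∃ ζ, f η = some ζ ∧ σ ζ ≠ ζ}.ncard := by
  set A := {η | f η ≠ some η ∧ σ η ≠ η} with hA
  set B := {η | f η ≠ some η ∧ ∃ ζ, f η = some ζ ∧ σ ζ ≠ ζ} with hB
  have hsub : {η | (f (σ η)).map σ.symm ≠ f η} ⊆ (σ ⁻¹' A ∪ A) ∪ B := by
    intro η hη
    have hη : (f (σ η)).map σ.symm ≠ f η := hη
    by_cases h1 : σ η = η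
    · right
      rw [h1] at hη
      rcases hf : f η with _ | ζ
      · rw [hf] at hη; exact absurd rfl hη
      · rw [hf] at hη
        have h2 : σ ζ ≠ ζ := by
          intro h
          apply hη
          rw [Option.map_some, Option.some_inj]
          rw [Equiv.symm_apply_eq]; exact h.symm
        refine ⟨?_, ζ, hf, h2⟩
        rw [hf]
        intro h3
        rw [Option.some_inj] at h3
        rw [h3] at h2
        exact h2 h1
    · left
      by_cases h2 : f (σ η) = some (σ η)
      · right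
        refine ⟨?_, h1⟩
        intro h3
        apply hη
        rw [h2, h3, Option.map_some, Equiv.symm_apply_apply]
      · left
        refine ⟨h2, ?_⟩
        intro h3
        exact h1 (σ.injective h3)
  have hpre : (σ ⁻¹' A).ncard = A.ncard := by
    rw [← Equiv.image_symm_eq_preimage]
    exact Set.ncard_image_of_injective _ σ.symm.injective
  calc _ ≤ ((σ ⁻¹' A ∪ A) ∪ B).ncard := Set.ncard_le_ncard hsub (Set.toFinite _)
    _ ≤ (σ ⁻¹' A ∪ A).ncard + B.ncard := Set.ncard_union_le _ _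
    _ ≤ ((σ ⁻¹' A).ncard + A.ncard) + B.ncard := by
        gcongr; exact Set.ncard_union_le _ _
    _ = _ := by rw [hpre]; ring

open Classical in
/-- double counting. -/
theorem double_count {M : Type} [Finite M] (S : Set M) (m b : ℕ) (R : ℕ → M → Prop)
    (h : ∀ η, {l | l < m ∧ R l η}.ncard ≤ b) :
    ∑ l ∈ Finset.range m, {η | η ∈ S ∧ R l η}.ncard ≤ b * S.ncard := by
  have := Fintype.ofFinite M
  have h1 : ∀ l, {η | η ∈ S ∧ R l η}.ncard = ∑ η ∈ S.toFinset, if R l η then 1 else 0 := by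
    intro l
    rw [← Finset.card_filter, ← Set.ncard_coe_finset]
    congr 1
    ext η
    simp
  have h2 : ∀ η, ∑ l ∈ Finset.range m, (if R l η then 1 else 0) ≤ b := by
    intro η
    refine le_trans (le_of_eq ?_) (h η)
    rw [← Finset.card_filter, ← Set.ncard_coe_finset]
    congr 1
    ext l
    simp
  simp only [h1]
  rw [Finset.sum_comm]
  calc _ ≤ ∑ η ∈ S.toFinset, b := Finset.sum_le_sum fun η _ => h2 η
    _ = _ := by
      rw [Finset.sum_const, smul_eq_mul, mul_comm, Set.ncard_eq_toFinset_card']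

/-- The growth step: summing over the primes. -/
theorem growth {M : Type} [Finite M] (f : M → Option M) (π : Equiv.Perm M) (N : ℕ) (hN : 0 < N)
    (hπ : π ^ N = 1) (m : ℕ) (p : ℕ → ℕ) (hp : ∀ l < m, (p l).Prime)
    (hinj : ∀ l < m, ∀ l' < m, p l = p l' → l = l') (σ : ℕ → Equiv.Perm M)
    (hσ : ∀ l < m, ∀ η, σ l η = η ↔ (π ^ (N / (p l) ^ (N.factorization (p l)))) η = η) :
    ∑ l ∈ Finset.range m, {η | (f (σ l η)).map (σ l).symm ≠ f η}.ncard ≤
      3 * Nat.log 2 (Nat.card M) * {η | f η ≠ some η}.ncard := by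
  set S := {η | f η ≠ some η} with hS
  set b := Nat.log 2 (Nat.card M) with hb
  have hmv : ∀ η, {l | l < m ∧ σ l η ≠ η}.ncard ≤ b := by
    intro η
    refine le_trans (le_of_eq ?_) (prime_parts π N hN hπ m p hp hinj η)
    congr 1
    ext l
    constructor
    · rintro ⟨h1, h2⟩; exact ⟨h1, fun h => h2 ((hσ l h1 η).2 h)⟩
    · rintro ⟨h1, h2⟩; exact ⟨h1, fun h => h2 ((hσ l h1 η).1 h)⟩
  have h1 := double_count S m b (fun l η => σ l η ≠ η) hmv
  have h2 := double_count S m b (fun l η => ∃ ζ, f η = some ζ ∧ σ l ζ ≠ ζ) (by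
    intro η
    rcases hf : f η with _ | ζ
    · simp
    · refine le_trans (le_of_eq ?_) (hmv ζ)
      congr 1
      ext l
      simp)
  calc _ ≤ ∑ l ∈ Finset.range m, (2 * {η | η ∈ S ∧ σ l η ≠ η}.ncard +
        {η | η ∈ S ∧ ∃ ζ, f η = some ζ ∧ σ l ζ ≠ ζ}.ncard) :=
        Finset.sum_le_sum fun l _ => conj_diff f (σ l)
    _ = 2 * ∑ l ∈ Finset.range m, {η | η ∈ S ∧ σ l η ≠ η}.ncard +
        ∑ l ∈ Finset.range m, {η | η ∈ S ∧ ∃ ζ, f η = some ζ ∧ σ l ζ ≠ ζ}.ncard := by
        rw [Finset.sum_add_distrib, Finset.mul_sum]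
    _ ≤ 2 * (b * S.ncard) + b * S.ncard := by gcongr
    _ = _ := by ring

end Vale.Agent.P343
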