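import Mathlib

/-! P343, module M3: generic words. -/

namespace Vale.Agent.P343

/-- Powers of words. -/
theorem exists_word_pow {α M : Type} [Monoid M] (μ : List α → M) (h1 : μ [] = 1)
    (hmul : ∀ u v, μ (u ++ v) = μ u * μ v) (X : Set (List α)) (hnil : [] ∈ X)
    (happ : ∀ u ∈ X, ∀ v ∈ X, u ++ v ∈ X) (sh : List α → ℕ) (hsh0 : sh [] = 0)
    (hsh : ∀ u ∈ X, ∀ v ∈ X, sh (u ++ v) = sh u + sh v) (u : List α) (hu : u ∈ X) (n : ℕ) :
    ∃ v ∈ X, μ v = μ u ^ n ∧ sh v = n * sh u := by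
  induction n with
  | zero => exact ⟨[], hnil, by simp [h1], by simp [hsh0]⟩
  | succ n ih =>
    obtain ⟨v, hv, h2, h3⟩ := ih
    refine ⟨v ++ u, happ v hv u hu, ?_, ?_⟩
    · rw [hmul, h2, pow_succ]
    · rw [hsh v hv u hu, h3]; ring

/-- Every element of a finite monoid has an idempotent positive power. -/
theorem exists_idempotent_pow {M : Type} [Monoid M] [Finite M] (g : M) :
    ∃ N : ℕ, 1 ≤ N ∧ g ^ N * g ^ N = g ^ N := by
  obtain ⟨a, b, hab, h⟩ := Finite.exists_ne_map_eq_of_infinite (fun n : ℕ => g ^ n)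
  wlog hlt : a < b generalizing a b with H
  · exact H b a hab.symm h.symm (by omega)
  obtain ⟨d, rfl⟩ : ∃ d, b = a + d := ⟨b - a, by omega⟩
  have hd : 1 ≤ d := by omega
  have hper : ∀ k, g ^ (a + k * d) = g ^ a := by
    intro k
    induction k with
    | zero => simp
    | succ k ih =>
      rw [show a + (k + 1) * d = (a + k * d) + d by ring, pow_add, ih, ← pow_add, ← h]
  refine ⟨(a + 1) * d, Nat.mul_pos (by omega) hd, ?_⟩
  have hle : a ≤ (a + 1) * d := by nlinarith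
  obtain ⟨c, hc⟩ := Nat.exists_eq_add_of_le hle
  rw [← pow_add]
  rw [show (a + 1) * d + (a + 1) * d = (a + (a + 1) * d) + c by omega, pow_add, hper, ← pow_add,
    ← hc]

theorem exists_generic {α M : Type} [Monoid M] [Finite M] (μ : List α → M) (h1 : μ [] = 1)
    (hmul : ∀ u v, μ (u ++ v) = μ u * μ v) (X : Set (List α)) (hnil : [] ∈ X)
    (happ : ∀ u ∈ X, ∀ v ∈ X, u ++ v ∈ X) (sh : List α → ℕ) (hsh0 : sh [] = 0)
    (hsh : ∀ u ∈ X, ∀ v ∈ X, sh (u ++ v) = sh u + sh v) (K : ℕ) (hK : 0 < K) :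
    ∃ w ∈ X, K ∣ sh w ∧ μ w * μ w = μ w ∧
      ∀ x ∈ X, ∃ N : ℕ, 1 ≤ N ∧ (μ w * μ x * μ w) ^ N = μ w := by
  set S : Set (List α) := {w | w ∈ X ∧ μ w * μ w = μ w} with hS
  set T : M → Set M := fun e => {y | ∃ x ∈ X, y = e * μ x * e} with hT
  obtain ⟨w, ⟨hwX, hww⟩, hmin⟩ := WellFounded.has_min
    (measure fun w : List α => (T (μ w)).ncard).wf S ⟨[], hnil, by rw [h1, one_mul]⟩
  have hgen : ∀ x ∈ X, ∃ N : ℕ, 1 ≤ N ∧ (μ w * μ x * μ w) ^ N = μ w := by
    intro x hx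
    obtain ⟨N, hN, hid⟩ := exists_idempotent_pow (μ w * μ x * μ w)
    refine ⟨N, hN, ?_⟩
    obtain ⟨v, hv, hv2, -⟩ := exists_word_pow μ h1 hmul X hnil happ sh hsh0 hsh
      (w ++ (x ++ w)) (happ w hwX _ (happ x hx w hwX)) N
    rw [hmul, hmul, ← mul_assoc] at hv2
    set g := μ w * μ x * μ w with hg
    set f := g ^ N with hf
    have hge : g * μ w = g := by rw [hg, mul_assoc, hww]
    have heg : μ w * g = g := by rw [hg, ← mul_assoc, ← mul_assoc, hww]
    have hfe : f * μ w = f := by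
      obtain ⟨k, rfl⟩ : ∃ k, N = k + 1 := ⟨N - 1, by omega⟩
      rw [hf, pow_succ, mul_assoc, hge]
    have hef : μ w * f = f := by
      obtain ⟨k, rfl⟩ : ∃ k, N = k + 1 := ⟨N - 1, by omega⟩
      rw [hf, pow_succ', ← mul_assoc, heg]
    have hsub : T f ⊆ T (μ w) := by
      rintro y ⟨z, hz, rfl⟩
      refine ⟨v ++ (z ++ v), happ v hv _ (happ z hz v hv), ?_⟩
      rw [hmul, hmul, hv2]
      calc f * μ z * f = (μ w * f) * μ z * (f * μ w) := by rw [hfe, hef]
        _ = _ := by simp only [mul_assoc]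
    have hle : (T (μ w)).ncard ≤ (T f).ncard := by
      have h5 : ¬ (T (μ v)).ncard < (T (μ w)).ncard := hmin v ⟨hv, by rw [hv2]; exact hid⟩
      rw [hv2] at h5
      exact Nat.le_of_not_lt h5
    have heq : T f = T (μ w) := Set.eq_of_subset_of_ncard_le hsub hle (Set.toFinite _)
    have hmem : μ w ∈ T f := by
      rw [heq]
      exact ⟨[], hnil, by rw [h1, mul_one, hww]⟩
    obtain ⟨y, -, hy⟩ := hmem
    calc f = f * μ w := hfe.symm
      _ = f * (f * μ y * f) := by rw [← hy]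
      _ = f * f * μ y * f := by simp only [mul_assoc]
      _ = f * μ y * f := by rw [hid]
      _ = μ w := hy.symm
  obtain ⟨v, hv, hv2, hv3⟩ := exists_word_pow μ h1 hmul X hnil happ sh hsh0 hsh w hwX K
  have hvw : μ v = μ w := by
    rw [hv2]
    obtain ⟨k, rfl⟩ : ∃ k, K = k + 1 := ⟨K - 1, by omega⟩
    clear hv2 hv3 hK
    induction k with
    | zero => simp
    | succ k ih => rw [pow_succ, ih, hww]
  refine ⟨v, hv, ⟨sh w, hv3⟩, ?_, ?_⟩
  · rw [hvw]; exact hww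
  · rw [hvw]; exact hgen

end Vale.Agent.P343
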