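import Mathlib

/-! P343: the abstract nested language (interface between the concrete language and the lower
bound). -/

namespace Vale.Agent.P343

/-- A nested language with levels `0, …, D`, `m` primes `p 0, …, p (m-1)`. `W i` are the words of
level `i`, `sh i w` the shift of `w`, and `acc i l t w` says that `w` is accepted from the context
`(i, l, t)`. -/
structure NLang (α : Type) (m D : ℕ) (p : ℕ → ℕ) where
  W : ℕ → Set (List α)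
  sh : ℕ → List α → ℕ
  acc : ℕ → ℕ → ℕ → List α → Prop
  rot : ℕ → α
  opn : ℕ → ℕ → α
  tst : α
  nil_mem : ∀ i ≤ D, [] ∈ W i
  append_mem : ∀ i ≤ D, ∀ u ∈ W i, ∀ v ∈ W i, u ++ v ∈ W i
  sh_nil : ∀ i ≤ D, sh i [] = 0
  sh_append : ∀ i ≤ D, ∀ u ∈ W i, ∀ v ∈ W i, sh i (u ++ v) = sh i u + sh i v
  acc_nil : ∀ i ≤ D, ∀ l < m, ∀ t, ¬ acc i l t []
  acc_append : ∀ i ≤ D, ∀ l < m, ∀ t, ∀ u ∈ W i, ∀ v ∈ W i,
    (acc i l t (u ++ v) ↔ acc i l t u ∨ acc i l (t + sh i u) v)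
  acc_mod : ∀ i ≤ D, ∀ l < m, ∀ t t', t ≡ t' [MOD p l] → ∀ w ∈ W i,
    (acc i l t w ↔ acc i l t' w)
  rot_mem : ∀ i ≤ D, [rot i] ∈ W i
  sh_rot : ∀ i ≤ D, sh i [rot i] = 1
  acc_rot : ∀ i ≤ D, ∀ l < m, ∀ t, ¬ acc i l t [rot i]
  opn_mem : ∀ i < D, ∀ l < m, ∀ v ∈ W (i + 1), opn i l :: v ∈ W i
  sh_opn : ∀ i < D, ∀ l < m, ∀ v ∈ W (i + 1), sh i (opn i l :: v) = 0
  acc_opn : ∀ i < D, ∀ l < m, ∀ v ∈ W (i + 1), ∀ l' < m, ∀ t,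
    (acc i l' t (opn i l :: v) ↔ p l' ∣ t ∧ acc (i + 1) l 0 v)
  tst_mem : [tst] ∈ W D
  sh_tst : sh D [tst] = 0
  acc_tst : ∀ l < m, ∀ t, (acc D l t [tst] ↔ p l ∣ t)

end Vale.Agent.P343
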