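import Vale.Agent.P343.Outer
import Vale.Agent.P343.Generic
import Vale.Agent.P343.Comb
import Vale.Agent.P343.NLang

/-! P343, module M7b: the induction. -/

namespace Vale.Agent.P343

section group

variable {Q : Type}

theorem IsIn.mul {e F G : Beh Q} (hF : IsIn e F) (hG : IsIn e G) : IsIn e (F * G) :=
  ⟨by rw [← mul_assoc, hF.left], by rw [mul_assoc, hG.right], hF.fn.mul hG.fn⟩

theorem isIn_mid {e F : Beh Q} (he : Idem e) (hF : Fn F) : IsIn e (e * F * e) :=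
  ⟨by rw [← mul_assoc, ← mul_assoc, he.idem], by rw [mul_assoc, he.idem],
    (he.fn.mul hF).mul he.fn⟩

theorem Fn.pow {F : Beh Q} (hF : Fn F) (n : ℕ) : Fn (F ^ n) := by
  induction n with
  | zero => rw [pow_zero]; exact Fn.one
  | succ n ih => rw [pow_succ]; exact ih.mul hF

theorem IsIn.pow {e F : Beh Q} (hF : IsIn e F) {n : ℕ} (hn : 1 ≤ n) : IsIn e (F ^ n) := by
  induction n, hn using Nat.le_induction with
  | base => rw [pow_one]; exact hF
  | succ n _ ih => rw [pow_succ]; exact ih.mul hF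

theorem IsIn.mid_eq {e F : Beh Q} (hF : IsIn e F) : e * F * e = F := by
  rw [hF.left, hF.right]

theorem Grp.pow {e G G' : Beh Q} (hG : Grp e G G') {n : ℕ} (hn : 1 ≤ n) :
    Grp e (G ^ n) (G' ^ n) := by
  induction n, hn using Nat.le_induction with
  | base => rw [pow_one, pow_one]; exact hG
  | succ n hn ih =>
    refine ⟨hG.memL.pow (Nat.le_succ_of_le hn), hG.memR.pow (Nat.le_succ_of_le hn), ?_, ?_⟩
    · rw [pow_succ G, pow_succ' G', mul_assoc, ← mul_assoc G, hG.mul, hG.memR.pow hn |>.left,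
        ih.mul]
    · rw [pow_succ G', pow_succ' G, mul_assoc, ← mul_assoc G', hG.mul', hG.memL.pow hn |>.left,
        ih.mul']

/-- An element with a power equal to `e` is of group type. -/
theorem grp_of_pow {e G : Beh Q} (he : Idem e) (hG : IsIn e G) {N : ℕ} (hN : 1 ≤ N)
    (h : G ^ N = e) : Grp e G (e * G ^ (N - 1) * e) := by
  refine ⟨hG, isIn_mid he (hG.fn.pow _), ?_, ?_⟩
  · rw [← mul_assoc, ← mul_assoc, hG.right, ← pow_succ', Nat.sub_add_cancel hN, h, he.idem]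
  · rw [mul_assoc, mul_assoc, hG.left, ← pow_succ, Nat.sub_add_cancel hN, h, he.idem]

theorem Grp.mid_pow {e G G' : Beh Q} (he : Idem e) (hG : Grp e G G') (n : ℕ) :
    Grp e (e * G ^ n * e) (e * G' ^ n * e) := by
  rcases Nat.eq_zero_or_pos n with rfl | hn
  · rw [pow_zero, pow_zero, mul_one, he.idem]
    exact ⟨he.isIn, he.isIn, he.idem, he.idem⟩
  · rw [(hG.memL.pow hn).mid_eq, (hG.memR.pow hn).mid_eq]
    exact hG.pow hn

end group

section words

variable {α : Type}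

/-- `n` copies of `u`. -/
def rep (u : List α) : ℕ → List α
  | 0 => []
  | n + 1 => rep u n ++ u

theorem mu_rep {M : Type} [Monoid M] (μ : List α → M) (h1 : μ [] = 1)
    (hmul : ∀ u v, μ (u ++ v) = μ u * μ v) (u : List α) (n : ℕ) : μ (rep u n) = μ u ^ n := by
  induction n with
  | zero => simp [rep, h1]
  | succ n ih => rw [rep, hmul, ih, pow_succ]

end words

namespace NLang

variable {α : Type} {m D : ℕ} {p : ℕ → ℕ} (N : NLang α m D p)

/-- Harmless words of level `i`. -/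
def X (i : ℕ) : Set (List α) := {w | w ∈ N.W i ∧ ∀ l < m, ∀ t, ¬ N.acc i l t w}

/-- Words of level `i` accepted exactly from `t ≡ 0`. -/
def Bad (i : ℕ) : Set (List α) := {y | y ∈ N.W i ∧ ∀ l < m, ∀ t, (N.acc i l t y ↔ p l ∣ t)}

theorem X_nil {i : ℕ} (hi : i ≤ D) : [] ∈ N.X i := ⟨N.nil_mem i hi, N.acc_nil i hi⟩

theorem X_append {i : ℕ} (hi : i ≤ D) {u v : List α} (hu : u ∈ N.X i) (hv : v ∈ N.X i) :
    u ++ v ∈ N.X i := by
  refine ⟨N.append_mem i hi u hu.1 v hv.1, fun l hl t h => ?_⟩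
  rcases (N.acc_append i hi l hl t u hu.1 v hv.1).1 h with h | h
  · exact hu.2 l hl t h
  · exact hv.2 l hl _ h

theorem X_rep {i : ℕ} (hi : i ≤ D) {u : List α} (hu : u ∈ N.X i) (n : ℕ) :
    rep u n ∈ N.X i := by
  induction n with
  | zero => exact N.X_nil hi
  | succ n ih => exact N.X_append hi ih hu

theorem sh_rep {i : ℕ} (hi : i ≤ D) {u : List α} (hu : u ∈ N.X i) (n : ℕ) :
    N.sh i (rep u n) = n * N.sh i u := by
  induction n with
  | zero => simp [rep, N.sh_nil i hi]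
  | succ n ih =>
    rw [rep, N.sh_append i hi _ (N.X_rep hi hu n).1 _ hu.1, ih]; ring

theorem X_rot {i : ℕ} (hi : i ≤ D) : [N.rot i] ∈ N.X i := ⟨N.rot_mem i hi, N.acc_rot i hi⟩

/-- A harmless prefix only shifts the context. -/
theorem acc_harmless_append {i : ℕ} (hi : i ≤ D) {u v : List α} (hu : u ∈ N.X i)
    (hv : v ∈ N.W i) {l : ℕ} (hl : l < m) (t : ℕ) :
    N.acc i l t (u ++ v) ↔ N.acc i l (t + N.sh i u) v := by
  rw [N.acc_append i hi l hl t u hu.1 v hv]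
  exact ⟨fun h => h.resolve_left (hu.2 l hl t), Or.inr⟩

/-- A harmless suffix changes nothing. -/
theorem acc_append_harmless {i : ℕ} (hi : i ≤ D) {u v : List α} (hu : u ∈ N.W i)
    (hv : v ∈ N.X i) {l : ℕ} (hl : l < m) (t : ℕ) :
    N.acc i l t (u ++ v) ↔ N.acc i l t u := by
  rw [N.acc_append i hi l hl t u hu v hv.1]
  exact ⟨fun h => h.resolve_right (hv.2 l hl _), Or.inl⟩

end NLang

/-- The data of a generic word at a level. -/
structure Gen {α : Type} {m D : ℕ} {p : ℕ → ℕ} (N : NLang α m D p) {Q : Type}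
    (μ : List α → Beh Q) (i : ℕ) (w : List α) : Prop where
  mem : w ∈ N.X i
  dvd : ∀ l < m, p l ∣ N.sh i w
  idem : Idem (μ w)
  grp : ∀ x ∈ N.X i, ∃ n : ℕ, 1 ≤ n ∧ (μ w * μ x * μ w) ^ n = μ w

theorem exists_gen {α : Type} {m D : ℕ} {p : ℕ → ℕ} (N : NLang α m D p)
    (hp : ∀ l < m, (p l).Prime) {Q : Type} [Finite Q]
    (μ : List α → Beh Q) (h1 : μ [] = 1) (hmul : ∀ u v, μ (u ++ v) = μ u * μ v)
    (hfn : ∀ u, Fn (μ u)) (i : ℕ) (hi : i ≤ D) : ∃ w, Gen N μ i w := by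
  haveI : Finite (Beh Q) := Beh.finite
  obtain ⟨w, hw, hK, hid, hg⟩ := exists_generic μ h1 hmul (N.X i) (N.X_nil hi)
    (fun u hu v hv => N.X_append hi hu hv) (N.sh i) (N.sh_nil i hi)
    (fun u hu v hv => N.sh_append i hi u hu.1 v hv.1) (∏ l ∈ Finset.range m, p l)
    (Finset.prod_pos fun l hl => (hp l (Finset.mem_range.1 hl)).pos)
  exact ⟨w, hw, fun l hl => (Finset.dvd_prod_of_mem p (Finset.mem_range.2 hl)).trans hK,
    ⟨hid, hfn w⟩, hg⟩

theorem dist_comm {Q : Type} (e F F' : Beh Q) : dist e F F' = dist e F' F := by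
  unfold dist
  congr 1
  ext η
  exact ne_comm

section step

variable {α : Type} {m D : ℕ} {p : ℕ → ℕ} (N : NLang α m D p) {Q : Type} [Finite Q]
  (μ : List α → Beh Q)

/-- The statement `Q(i)`. -/
def QStat (i : ℕ) (w : List α) (b : ℕ) : Prop :=
  ∀ y ∈ N.Bad i, ∀ x ∈ N.X i,
    m ^ i ≤ (3 * b) ^ i * dist (μ w) (μ w * μ y * μ w) (μ w * μ x * μ w)

theorem base_case (h1 : μ [] = 1) (hmul : ∀ u v, μ (u ++ v) = μ u * μ v)
    (hfn : ∀ u, Fn (μ u)) (hm : 0 < m)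
    (hrec : ∀ u ∈ N.W 0, ∀ v ∈ N.W 0, μ u = μ v → (N.acc 0 0 0 u ↔ N.acc 0 0 0 v))
    {w : List α} (hw : Gen N μ 0 w) (b : ℕ) : QStat N μ 0 w b := by
  intro y hy x hx
  rw [pow_zero, pow_zero, one_mul]
  by_contra hcon
  have h0 : dist (μ w) (μ w * μ y * μ w) (μ w * μ x * μ w) = 0 := by omega
  have heq := eq_of_dist_eq_zero hw.idem (isIn_mid hw.idem (hfn y)) (isIn_mid hw.idem (hfn x)) h0
  have hD : 0 ≤ D := Nat.zero_le D
  have hyw : y ++ w ∈ N.W 0 := N.append_mem 0 hD y hy.1 w hw.mem.1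
  have hxw : x ++ w ∈ N.X 0 := N.X_append hD hx hw.mem
  have hwxw : w ++ (x ++ w) ∈ N.X 0 := N.X_append hD hw.mem hxw
  have h2 := hrec (w ++ (y ++ w)) (N.append_mem 0 hD w hw.mem.1 _ hyw) (w ++ (x ++ w)) hwxw.1
    (by rw [hmul, hmul, hmul, hmul, ← mul_assoc, ← mul_assoc, heq])
  refine hwxw.2 0 hm 0 (h2.1 ?_)
  rw [N.acc_harmless_append hD hw.mem hyw hm, N.acc_append_harmless hD hy.1 hw.mem hm,
    hy.2 0 hm, Nat.zero_add]
  exact hw.dvd 0 hm

/-- One prime of the step: `m ^ i ≤ (3b)^i * dist e (h F₁ h') F₁`. -/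
theorem step_prime (h1 : μ [] = 1) (hmul : ∀ u v, μ (u ++ v) = μ u * μ v)
    (hfn : ∀ u, Fn (μ u)) (hp : ∀ l < m, (p l).Prime) {i : ℕ} (hi : i < D)
    {W w : List α} (hW : Gen N μ i W) (hw : Gen N μ (i + 1) w) {b : ℕ}
    (hQ : QStat N μ i W b) {y1 : List α} (hy1 : y1 ∈ N.W (i + 1)) {j : ℕ}
    (hacc : ∀ l < m, ∀ t, (N.acc (i + 1) l t y1 ↔ p l ∣ t + j))
    {n : ℕ} (hn : 1 ≤ n) (hGn : (μ w * μ [N.rot (i + 1)] * μ w) ^ n = μ w)
    {l : ℕ} (hl : l < m) {M : ℕ} (hM : 1 ≤ M) (hMl : ¬ p l ∣ M) :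
    m ^ i ≤ (3 * b) ^ i * dist (μ w)
      ((μ w * μ [N.rot (i + 1)] * μ w) ^ M * (μ w * μ y1 * μ w) *
        (μ w * (μ w * μ [N.rot (i + 1)] * μ w) ^ (n - 1) * μ w) ^ M) (μ w * μ y1 * μ w) := by
  have hi1 : i + 1 ≤ D := hi
  have hi0 : i ≤ D := hi.le
  set e := μ w with he_def
  set r : List α := [N.rot (i + 1)] with hr_def
  set G := e * μ r * e with hG_def
  have he : Idem e := hw.idem
  have hGin : IsIn e G := isIn_mid he (hfn r)
  have hrX : r ∈ N.X (i + 1) := N.X_rot hi1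
  have hGrp : Grp e G (e * G ^ (n - 1) * e) := grp_of_pow he hGin hn hGn
  set G' := e * G ^ (n - 1) * e with hG'_def
  -- the basic rotation word
  set c : List α := w ++ (r ++ w) with hc_def
  have hcX : c ∈ N.X (i + 1) := N.X_append hi1 hw.mem (N.X_append hi1 hrX hw.mem)
  have hμc : μ c = G := by rw [hc_def, hmul, hmul, hG_def, ← mul_assoc]
  have hshc : N.sh (i + 1) c = N.sh (i + 1) w + (1 + N.sh (i + 1) w) := by
    rw [hc_def, N.sh_append _ hi1 _ hw.mem.1 _ (N.X_append hi1 hrX hw.mem).1,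
      N.sh_append _ hi1 _ hrX.1 _ hw.mem.1, hr_def, N.sh_rot _ hi1]
  -- inverse word
  set c' : List α := w ++ (rep c (n - 1) ++ w) with hc'_def
  have hc'X : c' ∈ N.X (i + 1) :=
    N.X_append hi1 hw.mem (N.X_append hi1 (N.X_rep hi1 hcX _) hw.mem)
  have hμc' : μ c' = G' := by
    rw [hc'_def, hmul, hmul, mu_rep μ h1 hmul, hμc, hG'_def, ← mul_assoc]
  -- powers
  set xh := rep c M with hxh_def
  set xh' := rep c' M with hxh'_def
  have hxhX : xh ∈ N.X (i + 1) := N.X_rep hi1 hcX _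
  have hxh'X : xh' ∈ N.X (i + 1) := N.X_rep hi1 hc'X _
  have hμxh : μ xh = G ^ M := by rw [hxh_def, mu_rep μ h1 hmul, hμc]
  have hμxh' : μ xh' = G' ^ M := by rw [hxh'_def, mu_rep μ h1 hmul, hμc']
  set s := j * (p l - 1) with hs_def
  set xa := rep c s with hxa_def
  have hxaX : xa ∈ N.X (i + 1) := N.X_rep hi1 hcX _
  have hμxa : μ xa = G ^ s := by rw [hxa_def, mu_rep μ h1 hmul, hμc]
  set F1 := e * μ y1 * e with hF1_def
  have hF1in : IsIn e F1 := isIn_mid he (hfn y1)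
  -- the words
  have hwW := hw.mem.1
  set y2 := xh ++ (w ++ (y1 ++ (w ++ xh'))) with hy2_def
  have hwxh'X : w ++ xh' ∈ N.X (i + 1) := N.X_append hi1 hw.mem hxh'X
  have hy1wW : y1 ++ (w ++ xh') ∈ N.W (i + 1) := N.append_mem _ hi1 _ hy1 _ hwxh'X.1
  have hwy1W : w ++ (y1 ++ (w ++ xh')) ∈ N.W (i + 1) := N.append_mem _ hi1 _ hwW _ hy1wW
  have hy2W : y2 ∈ N.W (i + 1) := N.append_mem _ hi1 _ hxhX.1 _ hwy1W
  have hF2 : e * μ y2 * e = G ^ M * F1 * G' ^ M := by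
    have hGM := hGin.pow hM
    have hG'M := hGrp.memR.pow hM
    calc e * μ y2 * e = (e * G ^ M) * e * μ y1 * e * (G' ^ M * e) := by
          rw [hy2_def, hmul, hmul, hmul, hmul, hμxh, hμxh']; simp only [mul_assoc, ← he_def]
      _ = G ^ M * e * μ y1 * e * G' ^ M := by rw [hGM.left, hG'M.right]
      _ = G ^ M * F1 * G' ^ M := by rw [hF1_def]; simp only [mul_assoc]
  set z' := xa ++ (w ++ y1) with hz'_def
  set z := xa ++ (w ++ y2) with hz_def
  have hwy1 : w ++ y1 ∈ N.W (i + 1) := N.append_mem _ hi1 _ hwW _ hy1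
  have hwy2 : w ++ y2 ∈ N.W (i + 1) := N.append_mem _ hi1 _ hwW _ hy2W
  have hz'W : z' ∈ N.W (i + 1) := N.append_mem _ hi1 _ hxaX.1 _ hwy1
  have hzW : z ∈ N.W (i + 1) := N.append_mem _ hi1 _ hxaX.1 _ hwy2
  -- shifts modulo `p l`
  have hshxa : N.sh (i + 1) xa = s * (N.sh (i + 1) w + (1 + N.sh (i + 1) w)) := by
    rw [hxa_def, N.sh_rep hi1 hcX, hshc]
  have hshxh : N.sh (i + 1) xh = M * (N.sh (i + 1) w + (1 + N.sh (i + 1) w)) := by
    rw [hxh_def, N.sh_rep hi1 hcX, hshc]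
  obtain ⟨k, hk⟩ := hw.dvd l hl
  have hpl : 1 ≤ p l := (hp l hl).one_lt.le
  have hz'acc : ∀ t, p l ∣ t → N.acc (i + 1) l t z' := by
    rintro t ⟨t', rfl⟩
    rw [hz'_def, N.acc_harmless_append hi1 hxaX hwy1 hl, N.acc_harmless_append hi1 hw.mem hy1 hl,
      hacc l hl, hshxa, hk, hs_def]
    obtain ⟨q, hq⟩ : ∃ q, p l = q + 1 := ⟨p l - 1, by omega⟩
    rw [hq, Nat.add_sub_cancel]
    exact ⟨t' + j * q * (k + k) + k + j, by ring⟩
  have hzacc : ∀ t, p l ∣ t → ¬ N.acc (i + 1) l t z := by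
    rintro t ⟨t', rfl⟩
    rw [hz_def, N.acc_harmless_append hi1 hxaX hwy2 hl, N.acc_harmless_append hi1 hw.mem hy2W hl,
      hy2_def, N.acc_harmless_append hi1 hxhX hwy1W hl, N.acc_harmless_append hi1 hw.mem hy1wW hl,
      N.acc_append_harmless hi1 hy1 hwxh'X hl, hacc l hl, hshxa, hshxh, hk, hs_def]
    obtain ⟨q, hq⟩ : ∃ q, p l = q + 1 := ⟨p l - 1, by omega⟩
    rw [hq, Nat.add_sub_cancel]
    intro hdv
    apply hMl
    rw [hq]
    have h3 : (q + 1) * t' + j * q * ((q + 1) * k + (1 + (q + 1) * k)) + (q + 1) * k +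
        M * ((q + 1) * k + (1 + (q + 1) * k)) + (q + 1) * k + j =
        (q + 1) * (t' + j * q * (k + k) + k + M * (k + k) + k + j) + M := by ring
    rw [h3] at hdv
    exact (Nat.dvd_add_right (Dvd.intro _ rfl)).1 hdv
  -- outer words
  set O : List α := [N.opn i l] with hO_def
  have hz'wW : z' ++ w ∈ N.W (i + 1) := N.append_mem _ hi1 _ hz'W _ hwW
  have hzwW : z ++ w ∈ N.W (i + 1) := N.append_mem _ hi1 _ hzW _ hwW
  have hwz'wW : w ++ (z' ++ w) ∈ N.W (i + 1) := N.append_mem _ hi1 _ hwW _ hz'wW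
  have hwzwW : w ++ (z ++ w) ∈ N.W (i + 1) := N.append_mem _ hi1 _ hwW _ hzwW
  have hbad : N.opn i l :: (w ++ (z' ++ w)) ∈ N.Bad i := by
    refine ⟨N.opn_mem i hi l hl _ hwz'wW, fun l' hl' t => ?_⟩
    rw [N.acc_opn i hi l hl _ hwz'wW l' hl' t]
    refine ⟨fun h => h.1, fun h => ⟨h, ?_⟩⟩
    rw [N.acc_harmless_append hi1 hw.mem hz'wW hl, N.acc_append_harmless hi1 hz'W hw.mem hl]
    exact hz'acc _ ⟨k, by rw [hk]; ring⟩
  have hgood : N.opn i l :: (w ++ (z ++ w)) ∈ N.X i := by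
    refine ⟨N.opn_mem i hi l hl _ hwzwW, fun l' hl' t h => ?_⟩
    rw [N.acc_opn i hi l hl _ hwzwW l' hl' t] at h
    have h2 := h.2
    rw [N.acc_harmless_append hi1 hw.mem hzwW hl, N.acc_append_harmless hi1 hzW hw.mem hl] at h2
    exact hzacc _ ⟨k, by rw [hk]; ring⟩ h2
  have hQ' := hQ _ hbad _ hgood
  -- behaviours of the outer words
  set E := μ W with hE_def
  have hE : Idem E := hW.idem
  have hout : ∀ v, E * μ (N.opn i l :: (w ++ (v ++ w))) * E = (E * μ O) * (e * μ v * e) * E := by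
    intro v
    have : N.opn i l :: (w ++ (v ++ w)) = O ++ (w ++ (v ++ w)) := rfl
    rw [this, hmul, hmul, hmul]
    simp only [mul_assoc, ← he_def]
  rw [hout, hout] at hQ'
  have hFz : e * μ z * e = (e * G ^ s * e) * (G ^ M * F1 * G' ^ M) := by
    rw [← hF2, hz_def, hmul, hmul, hμxa]
    calc e * (G ^ s * (μ w * μ y2)) * e = e * G ^ s * (e * e) * μ y2 * e := by
          rw [he.idem]; simp only [mul_assoc, ← he_def]
      _ = _ := by simp only [mul_assoc]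
  have hFz' : e * μ z' * e = (e * G ^ s * e) * F1 := by
    rw [hF1_def, hz'_def, hmul, hmul, hμxa]
    calc e * (G ^ s * (μ w * μ y1)) * e = e * G ^ s * (e * e) * μ y1 * e := by
          rw [he.idem]; simp only [mul_assoc, ← he_def]
      _ = _ := by simp only [mul_assoc]
  -- the outer behaviour is of group type
  obtain ⟨n', hn', hgn'⟩ := hW.grp _ hgood
  rw [hout] at hgn'
  have hAin : IsIn E ((E * μ O) * (e * μ z * e) * E) := by
    rw [← hout]; exact isIn_mid hE (hfn _)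
  have hBin : IsIn E ((E * μ O) * (e * μ z' * e) * E) := by
    rw [← hout]; exact isIn_mid hE (hfn _)
  have hA := grp_of_pow hE hAin hn' hgn'
  have hO := outer hE he (hE.fn.mul (hfn O)) hE.fn (isIn_mid he (hfn z)) (isIn_mid he (hfn z'))
    hA hBin
  have ha : Grp e (e * G ^ s * e) (e * G' ^ s * e) := hGrp.mid_pow he s
  have hF2in : IsIn e (G ^ M * F1 * G' ^ M) :=
    ((hGin.pow hM).mul hF1in).mul (hGrp.memR.pow hM)
  have hD1 : dist e (e * μ z * e) (e * μ z' * e) = dist e (G ^ M * F1 * G' ^ M) F1 := by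
    rw [hFz, hFz', dist_mul_left he ha hF2in hF1in]
  rw [hD1, dist_comm E] at hO
  exact hQ'.trans (Nat.mul_le_mul_left _ hO)

theorem step_case (h1 : μ [] = 1) (hmul : ∀ u v, μ (u ++ v) = μ u * μ v)
    (hfn : ∀ u, Fn (μ u)) (hp : ∀ l < m, (p l).Prime)
    (hinj : ∀ l < m, ∀ l' < m, p l = p l' → l = l') {i : ℕ} (hi : i < D)
    {W w : List α} (hW : Gen N μ i W) (hw : Gen N μ (i + 1) w) {b : ℕ}
    (hb : Nat.log 2 (Nat.card (Me (μ w))) ≤ b)
    (hQ : QStat N μ i W b) : QStat N μ (i + 1) w b := by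
  intro y hy x hx
  have hi1 : i + 1 ≤ D := hi
  have he : Idem (μ w) := hw.idem
  -- the inverse of `x`
  obtain ⟨nx, hnx, hgx⟩ := hw.grp x hx
  have hgxin : IsIn (μ w) (μ w * μ x * μ w) := isIn_mid he (hfn x)
  have hgrpx := grp_of_pow he hgxin hnx hgx
  set x' : List α := rep (w ++ (x ++ w)) (nx - 1) with hx'_def
  have hx'X : x' ∈ N.X (i + 1) :=
    N.X_rep hi1 (N.X_append hi1 hw.mem (N.X_append hi1 hx hw.mem)) _
  have hμx' : μ x' = (μ w * μ x * μ w) ^ (nx - 1) := by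
    rw [hx'_def, mu_rep μ h1 hmul, hmul, hmul, ← mul_assoc]
  set y1 := x' ++ (w ++ y) with hy1_def
  have hwy : w ++ y ∈ N.W (i + 1) := N.append_mem _ hi1 _ hw.mem.1 _ hy.1
  have hy1W : y1 ∈ N.W (i + 1) := N.append_mem _ hi1 _ hx'X.1 _ hwy
  have hF1 : μ w * μ y1 * μ w =
      (μ w * (μ w * μ x * μ w) ^ (nx - 1) * μ w) * (μ w * μ y * μ w) := by
    rw [hy1_def, hmul, hmul, hμx']
    calc μ w * ((μ w * μ x * μ w) ^ (nx - 1) * (μ w * μ y)) * μ w =
        μ w * (μ w * μ x * μ w) ^ (nx - 1) * (μ w * μ w) * μ y * μ w := by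
          rw [he.idem]; simp only [mul_assoc]
      _ = _ := by simp only [mul_assoc]
  have hyin : IsIn (μ w) (μ w * μ y * μ w) := isIn_mid he (hfn y)
  have hdist : dist (μ w) (μ w * μ y1 * μ w) (μ w) =
      dist (μ w) (μ w * μ y * μ w) (μ w * μ x * μ w) := by
    rw [hF1]
    conv_lhs => rw [show dist (μ w)
      (μ w * (μ w * μ x * μ w) ^ (nx - 1) * μ w * (μ w * μ y * μ w)) (μ w) =
      dist (μ w) (μ w * (μ w * μ x * μ w) ^ (nx - 1) * μ w * (μ w * μ y * μ w))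
        (μ w * (μ w * μ x * μ w) ^ (nx - 1) * μ w * (μ w * μ x * μ w)) by rw [hgrpx.mul']]
    exact dist_mul_left he ⟨hgrpx.memR, hgrpx.memL, hgrpx.mul', hgrpx.mul⟩ hyin hgxin
  have hacc : ∀ l < m, ∀ t, (N.acc (i + 1) l t y1 ↔
      p l ∣ t + (N.sh (i + 1) x' + N.sh (i + 1) w)) := by
    intro l hl t
    rw [hy1_def, N.acc_harmless_append hi1 hx'X hwy hl, N.acc_harmless_append hi1 hw.mem hy.1 hl,
      hy.2 l hl, Nat.add_assoc]
  -- the rotation
  obtain ⟨n, hn, hGn⟩ := hw.grp _ (N.X_rot hi1)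
  have hGin : IsIn (μ w) (μ w * μ [N.rot (i + 1)] * μ w) := isIn_mid he (hfn _)
  have hGrp := grp_of_pow he hGin hn hGn
  obtain ⟨π, hπ, -⟩ := exists_perm he hGrp
  have hπn : π ^ n = 1 := by
    have h2 := isPerm_pow he hGrp hπ n hn
    rw [hGn] at h2
    ext1 η
    have h3 := (h2 η).1
    rw [H_self he] at h3
    simpa using (Option.some.inj h3).symm
  -- the conjugating permutations
  have hMpos : ∀ l < m, 1 ≤ n / (p l) ^ (n.factorization (p l)) := fun l _ =>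
    Nat.ordCompl_pos (p l) (by omega)
  have hex : ∀ l, ∃ σ : Equiv.Perm (Me (μ w)), l < m →
      (∀ η, σ η = η ↔ (π ^ (n / (p l) ^ (n.factorization (p l)))) η = η) ∧
      ∀ F, IsIn (μ w) F → ∀ η, H (μ w)
        ((μ w * μ [N.rot (i + 1)] * μ w) ^ (n / (p l) ^ (n.factorization (p l))) * F *
        (μ w * (μ w * μ [N.rot (i + 1)] * μ w) ^ (n - 1) * μ w) ^
          (n / (p l) ^ (n.factorization (p l)))) η = (H (μ w) F (σ η)).map σ.symm := by
    intro l
    by_cases hl : l < m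
    · obtain ⟨σ, h1, h2⟩ := conj_hat he (hGrp.pow (hMpos l hl))
        (isPerm_pow he hGrp hπ _ (hMpos l hl))
      exact ⟨σ, fun _ => ⟨h1, h2⟩⟩
    · exact ⟨1, fun h => absurd h hl⟩
  choose σ hσ using hex
  have hy1in : IsIn (μ w) (μ w * μ y1 * μ w) := isIn_mid he (hfn y1)
  have hgrow := growth (H (μ w) (μ w * μ y1 * μ w)) π n (by omega) hπn m p hp hinj σ
    (fun l hl => (hσ l hl).1)
  have hN1 : {η | H (μ w) (μ w * μ y1 * μ w) η ≠ some η}.ncard =
      dist (μ w) (μ w * μ y1 * μ w) (μ w) := by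
    unfold dist
    congr 1
    ext η
    simp only [Set.mem_setOf_eq, H_self he]
  rw [hN1, hdist] at hgrow
  have hsum : m * m ^ i ≤ (3 * b) ^ i * ∑ l ∈ Finset.range m,
      {η | (H (μ w) (μ w * μ y1 * μ w) (σ l η)).map (σ l).symm ≠
        H (μ w) (μ w * μ y1 * μ w) η}.ncard := by
    rw [Finset.mul_sum]
    calc m * m ^ i = ∑ l ∈ Finset.range m, m ^ i := by simp
      _ ≤ _ := by
        refine Finset.sum_le_sum fun l hl => ?_
        have hl := Finset.mem_range.1 hl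
        have h3 := step_prime N μ h1 hmul hfn hp hi hW hw hQ hy1W hacc hn hGn hl (hMpos l hl)
          (Nat.not_dvd_ordCompl (hp l hl) (by omega))
        have h4 : {η | (H (μ w) (μ w * μ y1 * μ w) (σ l η)).map (σ l).symm ≠
            H (μ w) (μ w * μ y1 * μ w) η} = {η | H (μ w)
            ((μ w * μ [N.rot (i + 1)] * μ w) ^ (n / (p l) ^ (n.factorization (p l))) *
            (μ w * μ y1 * μ w) * (μ w * (μ w * μ [N.rot (i + 1)] * μ w) ^ (n - 1) * μ w) ^
            (n / (p l) ^ (n.factorization (p l)))) η ≠ H (μ w) (μ w * μ y1 * μ w) η} := by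
          ext η
          simp only [Set.mem_setOf_eq]
          rw [(hσ l hl).2 _ hy1in η]
        rw [h4]
        exact h3
  calc m ^ (i + 1) = m * m ^ i := by ring
    _ ≤ _ := hsum
    _ ≤ (3 * b) ^ i * (3 * Nat.log 2 (Nat.card (Me (μ w))) *
        dist (μ w) (μ w * μ y * μ w) (μ w * μ x * μ w)) := Nat.mul_le_mul_left _ hgrow
    _ ≤ (3 * b) ^ i * (3 * b * dist (μ w) (μ w * μ y * μ w) (μ w * μ x * μ w)) := by
        gcongr
    _ = (3 * b) ^ (i + 1) * dist (μ w) (μ w * μ y * μ w) (μ w * μ x * μ w) := by ring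

/-- The lower bound. -/
theorem core (hm : 0 < m) (hp : ∀ l < m, (p l).Prime)
    (hinj : ∀ l < m, ∀ l' < m, p l = p l' → l = l') (h1 : μ [] = 1)
    (hmul : ∀ u v, μ (u ++ v) = μ u * μ v) (hfn : ∀ u, Fn (μ u))
    (hrec : ∀ u ∈ N.W 0, ∀ v ∈ N.W 0, μ u = μ v → (N.acc 0 0 0 u ↔ N.acc 0 0 0 v)) :
    m ^ D ≤ (3 * Nat.log 2 (Nat.card (Lab Q))) ^ D * Nat.card (Lab Q) := by
  set b := Nat.log 2 (Nat.card (Lab Q)) with hb_def
  have hb : ∀ e : Beh Q, Nat.log 2 (Nat.card (Me e)) ≤ b := fun e =>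
    Nat.log_mono_right (card_Me_le e)
  have hall : ∀ i ≤ D, ∃ w, Gen N μ i w ∧ QStat N μ i w b := by
    intro i
    induction i with
    | zero =>
      intro hi
      obtain ⟨w, hw⟩ := exists_gen N hp μ h1 hmul hfn 0 hi
      exact ⟨w, hw, base_case N μ h1 hmul hfn hm hrec hw b⟩
    | succ i ih =>
      intro hi
      obtain ⟨W, hW, hQ⟩ := ih (by omega)
      obtain ⟨w, hw⟩ := exists_gen N hp μ h1 hmul hfn (i + 1) hi
      exact ⟨w, hw, step_case N μ h1 hmul hfn hp hinj hi hW hw (hb _) hQ⟩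
  obtain ⟨w, _, hQ⟩ := hall D le_rfl
  have h2 := hQ [N.tst] ⟨N.tst_mem, N.acc_tst⟩ [] (N.X_nil le_rfl)
  refine h2.trans (Nat.mul_le_mul_left _ ?_)
  exact (dist_le_card _ _ _).trans (card_Me_le _)

end step

end Vale.Agent.P343
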