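import Mathlib

/-!
P343: two-way nondeterministic finite automata, exactly as in the problem file.
-/

namespace Vale.Agent.P343

/-- The symbols on the tape: the left endmarker, the letters of the alphabet, the right
endmarker. -/
inductive Sym (α : Type) : Type
  | lend : Sym α
  | letter : α → Sym α
  | rend : Sym α

/-- The three possible head moves. -/
inductive Move : Type
  | left : Move
  | stay : Move
  | right : Move

/-- A two-way nondeterministic finite automaton over the alphabet `α`. -/
structure TwoNFA (α : Type) where
  /-- the set of states -/
  State : Type
  /-- it is finite -/
  finite : Finite State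
  /-- the initial state -/
  start : State
  /-- the accepting states -/
  accept : Set State
  /-- the transitions: in state `q` scanning `a`, go to the new state and move the head -/
  trans : State → Sym α → Set (State × Move)
  /-- the head never moves left of the left endmarker -/
  lend_left : ∀ q q', (q', Move.left) ∉ trans q Sym.lend
  /-- the head never moves right of the right endmarker -/
  rend_right : ∀ q q', (q', Move.right) ∉ trans q Sym.rend

namespace TwoNFA

variable {α : Type}

/-- The tape for the input `w`: cell `0` holds the left endmarker, cells `1, …, |w|` the letters
of `w`, and cell `|w| + 1` the right endmarker. -/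
def tape (w : List α) : List (Sym α) := Sym.lend :: (w.map Sym.letter ++ [Sym.rend])

/-- One step of the automaton on input `w`; a configuration is a state and a head position. -/
inductive Step (A : TwoNFA α) (w : List α) : A.State × ℕ → A.State × ℕ → Prop
  | left {q q' : A.State} {i : ℕ} {a : Sym α} : (tape w)[i + 1]? = some a →
      (q', Move.left) ∈ A.trans q a → Step A w (q, i + 1) (q', i)
  | stay {q q' : A.State} {i : ℕ} {a : Sym α} : (tape w)[i]? = some a →
      (q', Move.stay) ∈ A.trans q a → Step A w (q, i) (q', i)
  | right {q q' : A.State} {i : ℕ} {a : Sym α} : (tape w)[i]? = some a →
      (q', Move.right) ∈ A.trans q a → Step A w (q, i) (q', i + 1)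

/-- Some finite computation from the initial state on the left endmarker reaches an accepting
state. -/
def Accepts (A : TwoNFA α) (w : List α) : Prop :=
  ∃ q ∈ A.accept, ∃ i : ℕ, Relation.ReflTransGen (Step A w) (A.start, 0) (q, i)

/-- The language recognized by the automaton. -/
def language (A : TwoNFA α) : Set (List α) := {w | A.Accepts w}

/-- A 2DFA: at most one transition for each state and symbol. -/
def Deterministic (A : TwoNFA α) : Prop := ∀ q a, (A.trans q a).Subsingleton

/-- A one-way automaton never moves left. -/
def OneWay (A : TwoNFA α) : Prop := ∀ q a q', (q', Move.left) ∉ A.trans q a

/-- The size of an automaton is its number of states. -/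
noncomputable def size (A : TwoNFA α) : ℕ := Nat.card A.State

end TwoNFA

end Vale.Agent.P343
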