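import Vale.Agent.P343.HatDefs

/-! P343, module M4, first half: hats of elements of `eTe`. -/

namespace Vale.Agent.P343

variable {Q : Type}

theorem Idem.isIn {e : Beh Q} (he : Idem e) : IsIn e e := ⟨he.idem, he.idem, he.fn⟩

namespace HatAux

/-- `F = e * F` and `F = F * e` in a direction-parametric form: `e` lies on side `b`. -/
theorem star_side {e F : Beh Q} (hF : IsIn e F) (b : Bool) : Star (sided b e F) = F := by
  cases b
  · rw [sided_false]
    have h := hF.left
    rw [mul_def] at h
    exact h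
  · rw [sided_true]
    have h := hF.right
    rw [mul_def] at h
    exact h

/-- the last step of a run -/
theorem mid_last {B : Bool → Beh Q} {x y : Lab Q} (h : Mid B x y) :
    ∃ q, B y.1 (y.1, q) y := by
  induction h with
  | @exit d q q' h => exact ⟨q, h⟩
  | back _ _ ih => exact ih

/-- entering past `e` on the near side -/
theorem F_near {e F : Beh Q} (he : Idem e) (hF : IsIn e F) {x η : Lab Q}
    (hd : x.1 = η.1) (hx : e x η) (ζ : Lab Q) :
    F x ζ ↔ Mid (sided (!η.1) e F) η ζ := by
  obtain ⟨d, q⟩ := x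
  obtain ⟨d', q'⟩ := η
  simp only at hd
  subst hd
  have hs := star_side hF (!d)
  constructor
  · intro h
    rw [← hs] at h
    cases h with
    | bounce h =>
      rw [sided_self] at h
      have := he.fn _ _ _ hx h
      simp at this
    | enter h h2 =>
      rw [sided_self] at h
      have := he.fn _ _ _ hx h
      rw [this]
      exact h2
  · intro h
    rw [← hs]
    exact Star.enter (by rw [sided_self]; exact hx) h

/-- outputs of `F` entered past `e` lie in `Ms e` -/
theorem out_mem {e F : Beh Q} (he : Idem e) (hF : IsIn e F) {x η ζ : Lab Q}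
    (hd : x.1 = η.1) (hx : e x η) (h : F x ζ) : ζ ∈ Ms e := by
  obtain ⟨d, q⟩ := x
  obtain ⟨d', q'⟩ := η
  simp only at hd
  subst hd
  rcases Bool.eq_or_eq_not ζ.1 d with hc | hc
  · -- exit on the far side
    have hs := star_side hF d
    rw [← hs] at h
    cases h with
    | bounce h => simp at hc
    | enter h h2 =>
      obtain ⟨r, hr⟩ := mid_last h2
      rw [hc, sided_self] at hr
      exact ⟨(d, r), hc.symm, hr⟩
  · have h2 := (F_near he hF (x := (d, q)) (η := (d, q')) rfl hx ζ).1 h
    obtain ⟨r, hr⟩ := mid_last h2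
    rw [hc, sided_self] at hr
    exact ⟨(!d, r), hc.symm, hr⟩

end HatAux

open HatAux

/-- If `e x η` with `x` of the direction of `η`, then `F x` is given by the hat map. -/
theorem H_iff {e F : Beh Q} (he : Idem e) (hF : IsIn e F) {x : Lab Q} {η : Me e}
    (hd : x.1 = η.1.1) (hx : e x η.1) (ζ : Lab Q) :
    F x ζ ↔ ∃ hζ : ζ ∈ Ms e, H e F η = some ⟨ζ, hζ⟩ := by
  constructor
  · intro h
    have hζ := out_mem he hF hd hx h
    refine ⟨hζ, ?_⟩
    have hex : ∃ ζ : Me e, ∃ x : Lab Q, x.1 = η.1.1 ∧ e x η.1 ∧ F x ζ.1 :=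
      ⟨⟨ζ, hζ⟩, x, hd, hx, h⟩
    unfold H
    rw [dif_pos hex]
    congr 1
    obtain ⟨x0, h1, h2, h3⟩ := hex.choose_spec
    have h4 := (F_near he hF h1 h2 _).1 h3
    have h5 := (F_near he hF hd hx _).2 h4
    exact Subtype.ext (hF.fn _ _ _ h5 h)
  · rintro ⟨hζ, h⟩
    unfold H at h
    split_ifs at h with hex
    obtain ⟨x0, h1, h2, h3⟩ := hex.choose_spec
    have h6 : hex.choose = ⟨ζ, hζ⟩ := Option.some.inj h
    rw [h6] at h3
    exact (F_near he hF hd hx _).2 ((F_near he hF h1 h2 _).1 h3)

/-- If `e` reverses the direction of `x`, then every `F ∈ eTe` agrees with `e` at `x`. -/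
theorem F_rev {e F : Beh Q} (he : Idem e) (hF : IsIn e F) {x y : Lab Q}
    (hxy : e x y) (hd : y.1 ≠ x.1) (ζ : Lab Q) : F x ζ ↔ ζ = y := by
  obtain ⟨d, q⟩ := x
  obtain ⟨d', q'⟩ := y
  simp only at hd
  have hd' : d' = !d := by
    cases d <;> cases d' <;> simp_all
  subst hd'
  have hs := star_side hF (!d)
  constructor
  · intro h
    rw [← hs] at h
    cases h with
    | bounce h =>
      rw [sided_self] at h
      exact he.fn _ _ _ h hxy
    | enter h _ =>
      rw [sided_self] at h
      have := he.fn _ _ _ h hxy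
      simp at this
  · rintro rfl
    rw [← hs]
    exact Star.bounce (by rw [sided_self]; exact hxy)

/-- If `e` is undefined at `x`, so is every `F ∈ eTe`. -/
theorem F_undef {e F : Beh Q} (_he : Idem e) (hF : IsIn e F) {x : Lab Q}
    (hx : ∀ y, ¬ e x y) (ζ : Lab Q) : ¬ F x ζ := by
  obtain ⟨d, q⟩ := x
  have hs := star_side hF (!d)
  intro h
  rw [← hs] at h
  cases h with
  | bounce h =>
    rw [sided_self] at h
    exact hx _ h
  | enter h _ =>
    rw [sided_self] at h
    exact hx _ h

theorem H_self {e : Beh Q} (he : Idem e) (η : Me e) : H e e η = some η := by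
  obtain ⟨x, hx1, hx2⟩ := η.2
  obtain ⟨h1, h2⟩ := (H_iff he he.isIn hx1 hx2 η.1).1 hx2
  exact h2

/-- Equal hat maps give equal behaviours. -/
theorem eq_of_dist_eq_zero [Finite Q] {e F F' : Beh Q} (he : Idem e) (hF : IsIn e F)
    (hF' : IsIn e F') (h : dist e F F' = 0) : F = F' := by
  unfold dist at h
  rw [Set.ncard_eq_zero (Set.toFinite _)] at h
  have hH : ∀ η : Me e, H e F η = H e F' η := by
    intro η
    by_contra hne
    have : η ∈ ({η : Me e | H e F η ≠ H e F' η} : Set (Me e)) := hne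
    rw [h] at this
    exact this
  refine Beh.ext fun x ζ => ?_
  by_cases hx : ∃ y, e x y
  · obtain ⟨y, hy⟩ := hx
    by_cases hd : y.1 = x.1
    · have hm : y ∈ Ms e := ⟨x, hd.symm, hy⟩
      rw [H_iff he hF (η := ⟨y, hm⟩) hd.symm hy ζ, H_iff he hF' (η := ⟨y, hm⟩) hd.symm hy ζ,
        hH ⟨y, hm⟩]
    · rw [F_rev he hF hy hd, F_rev he hF' hy hd]
  · push Not at hx
    exact ⟨fun h => absurd h (F_undef he hF hx ζ), fun h => absurd h (F_undef he hF' hx ζ)⟩

theorem card_Me_le [Finite Q] (e : Beh Q) : Nat.card (Me e) ≤ Nat.card (Lab Q) :=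
  Nat.card_le_card_of_injective (fun η : Me e => η.1) Subtype.val_injective

theorem dist_le_card [Finite Q] (e F F' : Beh Q) : dist e F F' ≤ Nat.card (Me e) := by
  unfold dist
  rw [← Set.ncard_univ]
  exact Set.ncard_le_ncard (Set.subset_univ _) (Set.toFinite _)

end Vale.Agent.P343
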