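import Vale.Agent.P343.Hat

/-! P343, module M4, second half: group-type behaviours. -/

namespace Vale.Agent.P343

variable {Q : Type}

theorem Grp.symm {e G G' : Beh Q} (hG : Grp e G G') : Grp e G' G :=
  ⟨hG.memR, hG.memL, hG.mul', hG.mul⟩

namespace HatAux

theorem star_inv {B : Bool → Beh Q} {x y : Lab Q} (h : Star B x y) :
    (y.1 = (!x.1) ∧ B (!x.1) x y) ∨ ∃ q', B (!x.1) x (x.1, q') ∧ Mid B (x.1, q') y := by
  cases h with
  | bounce h => exact Or.inl ⟨rfl, h⟩
  | enter h h2 => exact Or.inr ⟨_, h, h2⟩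

theorem sided_swap (b : Bool) (F G : Beh Q) : sided (!b) F G = sided b G F := by
  funext d
  cases b <;> cases d <;> rfl

/-- visits of `e` in a run leaving on the other side are reversals, where `e` and `F₂` agree -/
theorem shallow {e F₂ G : Beh Q} (he : Idem e) (hF : IsIn e F₂) {c : Bool} {z y : Lab Q}
    (h : Mid (sided c e G) z y) (hy : y.1 = !c) : Mid (sided c F₂ G) z y := by
  induction h with
  | @exit d q q' h =>
    simp only at hy
    subst hy
    rw [sided_not] at h
    exact Mid.exit (by rw [sided_not]; exact h)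
  | @back d q q' y h _ ih =>
    refine Mid.back ?_ (ih hy)
    rcases Bool.eq_or_eq_not d c with rfl | rfl
    · rw [sided_self] at h ⊢
      exact (F_rev he hF h (by simp) _).2 rfl
    · rw [sided_not] at h ⊢
      exact h

theorem grp_side {e G G' : Beh Q} (hG : Grp e G G') (b : Bool) : Star (sided b G G') = e := by
  cases b
  · rw [sided_false]
    have h := hG.mul
    rw [mul_def] at h
    exact h
  · rw [sided_true]
    have h := hG.mul'
    rw [mul_def] at h
    exact h

/-- a group-type behaviour keeps the direction of labels of `Ms e` -/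
theorem grp_def {e G G' : Beh Q} (he : Idem e) (hG : Grp e G G') (η : Me e) :
    ∃ ζ : Me e, ζ.1.1 = η.1.1 ∧ H e G η = some ζ ∧ Mid (sided (!η.1.1) G G') ζ.1 η.1 := by
  obtain ⟨x, hd, hx⟩ := η.2
  have hs := grp_side hG (!η.1.1)
  have hx' : Star (sided (!η.1.1) G G') x η.1 := (congrFun (congrFun hs x) η.1).mpr hx
  rcases star_inv hx' with ⟨h1, _⟩ | ⟨q', h, h2⟩
  · rw [hd] at h1
    simp at h1
  · rw [hd, sided_self] at h
    rw [hd] at h2
    have hm : (η.1.1, q') ∈ Ms e := out_mem he hG.memL hd hx h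
    refine ⟨⟨(η.1.1, q'), hm⟩, rfl, ?_, h2⟩
    obtain ⟨_, h3⟩ := (H_iff he hG.memL hd hx (η.1.1, q')).1 h
    exact h3

theorem grp_inv {e G G' : Beh Q} (he : Idem e) (hG : Grp e G G') {η ζ : Me e}
    (h : H e G η = some ζ) : H e G' ζ = some η := by
  obtain ⟨ζ', h1, h2, h3⟩ := grp_def he hG η
  have hz : ζ' = ζ := by
    rw [h] at h2
    exact (Option.some.inj h2).symm
  subst hz
  obtain ⟨η', k1, k2, _⟩ := grp_def he hG.symm ζ'
  obtain ⟨x, hx1, hx2⟩ := ζ'.2
  have k4 := (H_iff he hG.memR hx1 hx2 η'.1).2 ⟨η'.2, k2⟩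
  have k5 := (F_near he hG.memR hx1 hx2 η'.1).1 k4
  have k6 := shallow he hG.memL k5 (by rw [k1, Bool.not_not])
  rw [h1] at k6
  have hfn : ∀ d, Fn (sided (!η.1.1) G G' d) := by
    intro d
    unfold sided
    split_ifs
    · exact hG.memL.fn
    · exact hG.memR.fn
  have k7 := Mid.fn hfn k6 h3
  rw [k2]
  congr 1
  exact Subtype.ext k7

end HatAux

open HatAux

/-- A group-type behaviour acts as a direction-preserving permutation of `Me e`. -/
theorem exists_perm {e G G' : Beh Q} (he : Idem e) (hG : Grp e G G') :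
    ∃ π : Equiv.Perm (Me e), IsPerm e G π ∧ IsPerm e G' π.symm := by
  choose f hf1 hf2 hf3 using grp_def he hG
  choose g hg1 hg2 hg3 using grp_def he hG.symm
  have hgf : ∀ η, g (f η) = η := by
    intro η
    have h1 := grp_inv he hG (hf2 η)
    rw [hg2] at h1
    exact Option.some.inj h1
  have hfg : ∀ η, f (g η) = η := by
    intro η
    have h1 := grp_inv he hG.symm (hg2 η)
    rw [hf2] at h1
    exact Option.some.inj h1
  exact ⟨⟨f, g, hgf, hfg⟩, fun η => ⟨hf2 η, hf1 η⟩, fun η => ⟨hg2 η, hg1 η⟩⟩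

namespace HatAux

theorem isPerm_symm {e G G' : Beh Q} (he : Idem e) (hG : Grp e G G') {π : Equiv.Perm (Me e)}
    (hπ : IsPerm e G π) : IsPerm e G' π.symm := by
  intro η
  have h1 := (hπ (π.symm η)).1
  rw [Equiv.apply_symm_apply] at h1
  have h2 := grp_inv he hG h1
  refine ⟨h2, ?_⟩
  have h3 := (hπ (π.symm η)).2
  rw [Equiv.apply_symm_apply] at h3
  exact h3.symm

theorem dir_symm {e : Beh Q} {π : Equiv.Perm (Me e)} (hπ : ∀ η, (π η).1.1 = η.1.1) (η : Me e) :
    (π.symm η).1.1 = η.1.1 := by
  have h3 := hπ (π.symm η)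
  rw [Equiv.apply_symm_apply] at h3
  exact h3.symm

/-- `π` on the labels of direction `c`, identity on the others -/
def permC {e : Beh Q} (π : Equiv.Perm (Me e)) (hπ : ∀ η, (π η).1.1 = η.1.1) (c : Bool) :
    Equiv.Perm (Me e) where
  toFun η := if η.1.1 = c then π η else η
  invFun η := if η.1.1 = c then π.symm η else η
  left_inv η := by
    by_cases h : η.1.1 = c
    · simp only [h, if_true, hπ, Equiv.symm_apply_apply]
    · simp only [h, if_false]
  right_inv η := by
    by_cases h : η.1.1 = c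
    · simp only [h, if_true, dir_symm hπ, Equiv.apply_symm_apply]
    · simp only [h, if_false]

theorem permC_of_eq {e : Beh Q} {π : Equiv.Perm (Me e)} {hπ : ∀ η, (π η).1.1 = η.1.1} {c : Bool}
    {η : Me e} (h : η.1.1 = c) : permC π hπ c η = π η := if_pos h

theorem permC_of_ne {e : Beh Q} {π : Equiv.Perm (Me e)} {hπ : ∀ η, (π η).1.1 = η.1.1} {c : Bool}
    {η : Me e} (h : η.1.1 ≠ c) : permC π hπ c η = η := if_neg h

theorem isIn_side {e G F : Beh Q} (hG : IsIn e G) (hF : IsIn e F) (b : Bool) :
    IsIn e (Star (sided b G F)) := by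
  have key : ∀ X Y : Beh Q, IsIn e X → IsIn e Y → IsIn e (X * Y) := by
    intro X Y hX hY
    refine ⟨?_, ?_, hX.fn.mul hY.fn⟩
    · rw [← mul_assoc, hX.left]
    · rw [mul_assoc, hY.right]
  cases b
  · rw [sided_false]
    exact key G F hG hF
  · rw [sided_true]
    exact key F G hF hG

/-- regrouping of `G' | G | F` -/
theorem regroup {e G G' F : Beh Q} (hG : Grp e G G') (b : Bool) {x y : Lab Q} :
    Mid (sided b e F) x y ↔ ∃ z, Mid (sided b G F) x z ∧
      ((z.1 = (!b) ∧ y = z) ∨ (z.1 = b ∧ Mid (sided b G' (Star (sided b G F))) z y)) := by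
  have h1 : Bp (sided b G' F) G (!b) = sided b e F := by
    funext d
    rcases Bool.eq_or_eq_not d b with rfl | rfl
    · have h := Bp_not (sided d G' F) G (!d)
      rw [Bool.not_not] at h
      rw [h, sided_self, sided_self, grp_side hG]
    · rw [Bp_self, sided_not, sided_not]
  have h2 : Bp (sided b G' F) G b = sided b G' (Star (sided b G F)) := by
    funext d
    rcases Bool.eq_or_eq_not d b with rfl | rfl
    · rw [Bp_self, sided_self, sided_self]
    · rw [Bp_not, sided_not, sided_not]
  rw [← h1, ← T3_iff_mid, T3_iff_inner]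
  simp only [T3_iff_mid, h2, sided_not]

/-- the hat of a product with a group-type behaviour on side `b` -/
theorem hat_side {e G G' F : Beh Q} (he : Idem e) (hG : Grp e G G') {π : Equiv.Perm (Me e)}
    (hπ : IsPerm e G π) (hF : IsIn e F) (b : Bool) (η : Me e) :
    H e (Star (sided b G F)) η =
      (H e F (permC π (fun η => (hπ η).2) (!b) η)).map (permC π (fun η => (hπ η).2) b) := by
  have hK : IsIn e (Star (sided b G F)) := isIn_side hG.memL hF b
  have hπ' := isPerm_symm he hG hπ
  obtain ⟨x, hx1, hx2⟩ := η.2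
  by_cases hdir : η.1.1 = !b
  · -- `G` is entered first
    rw [permC_of_eq hdir]
    obtain ⟨ζ, hζ⟩ : ∃ ζ, ζ = π η := ⟨_, rfl⟩
    have hζd : ζ.1.1 = !b := by rw [hζ, (hπ η).2, hdir]
    have hGx : G x ζ.1 := by
      rw [H_iff he hG.memL hx1 hx2]
      refine ⟨ζ.2, ?_⟩
      rw [(hπ η).1, hζ]
    have hKx : ∀ w, Star (sided b G F) x w ↔ Mid (sided b G F) ζ.1 w := by
      intro w
      have hxd : x.1 = !b := hx1.trans hdir
      constructor
      · intro h
        rcases star_inv h with ⟨h1, h2⟩ | ⟨q', h2, h3⟩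
        · rw [hxd, Bool.not_not, sided_self] at h2
          have h4 := hG.memL.fn _ _ _ hGx h2
          rw [← h4, hζd, hxd] at h1
          simp at h1
        · rw [hxd, Bool.not_not, sided_self] at h2
          have h4 := hG.memL.fn _ _ _ hGx h2
          rw [hxd, ← h4] at h3
          exact h3
      · intro h
        obtain ⟨z, hz⟩ : ∃ z, z = ζ.1 := ⟨_, rfl⟩
        rw [← hz] at h hGx hζd
        clear hz
        obtain ⟨z1, z2⟩ := z
        obtain ⟨x1, x2⟩ := x
        simp only at hζd hxd
        subst hζd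
        subst hxd
        exact Star.enter (by rw [Bool.not_not, sided_self]; exact hGx) h
    obtain ⟨x', hx1', hx2'⟩ := ζ.2
    have hFx : ∀ w, F x' w ↔ Mid (sided b e F) ζ.1 w := by
      intro w
      rw [F_near he hF hx1' hx2', hζd, Bool.not_not]
    -- left-moving outputs
    have hout : ∀ w : Lab Q, ∀ hw : w ∈ Ms e, w.1 = b →
        Mid (sided b G' (Star (sided b G F))) w (π.symm ⟨w, hw⟩).1 := by
      intro w hw hwb
      have hw' := hw
      obtain ⟨x2, hx21, hx22⟩ := hw'
      have k1 := (H_iff he hG.memR (η := ⟨w, hw⟩) hx21 hx22 (π.symm ⟨w, hw⟩).1).2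
        ⟨(π.symm ⟨w, hw⟩).2, (hπ' ⟨w, hw⟩).1⟩
      have k2 := (F_near he hG.memR hx21 hx22 _).1 k1
      rw [hwb] at k2
      have k3 := shallow he hK k2 (by
        rw [Bool.not_not, (hπ' ⟨w, hw⟩).2]; exact hwb)
      rw [sided_swap] at k3
      exact k3
    have hfn : ∀ d, Fn (sided b G' (Star (sided b G F)) d) := by
      intro d
      unfold sided
      split_ifs
      · exact hG.memR.fn
      · exact hK.fn
    rw [← hζ]
    rcases hH : H e (Star (sided b G F)) η with _ | w
    · -- undefined
      rcases hHF : H e F ζ with _ | y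
      · rfl
      · exfalso
        have k1 := (H_iff he hF hx1' hx2' y.1).2 ⟨y.2, hHF⟩
        rw [hFx, regroup hG b] at k1
        obtain ⟨z, hz, _⟩ := k1
        rw [← hKx] at hz
        obtain ⟨_, hz2⟩ := (H_iff he hK hx1 hx2 z).1 hz
        rw [hH] at hz2
        simp at hz2
    · have k1 := (H_iff he hK hx1 hx2 w.1).2 ⟨w.2, hH⟩
      rw [hKx] at k1
      by_cases hwb : w.1.1 = b
      · have k2 : F x' (π.symm w).1 := by
          rw [hFx, regroup hG b]
          exact ⟨w.1, k1, Or.inr ⟨hwb, hout w.1 w.2 hwb⟩⟩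
        obtain ⟨_, k3⟩ := (H_iff he hF hx1' hx2' _).1 k2
        rw [k3, Option.map_some]
        congr 1
        rw [permC_of_eq (by
          show (π.symm w).1.1 = b
          rw [(hπ' w).2]; exact hwb)]
        show w = π (π.symm w)
        rw [Equiv.apply_symm_apply]
      · have hwb' : w.1.1 = !b := by
          rcases Bool.eq_or_eq_not w.1.1 b with h | h
          · exact absurd h hwb
          · exact h
        have k2 : F x' w.1 := by
          rw [hFx, regroup hG b]
          exact ⟨w.1, k1, Or.inl ⟨hwb', rfl⟩⟩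
        obtain ⟨_, k3⟩ := (H_iff he hF hx1' hx2' _).1 k2
        rw [k3, Option.map_some]
        congr 1
        rw [permC_of_ne hwb]
  · -- `F` is entered first
    have hdir' : η.1.1 = b := by
      rcases Bool.eq_or_eq_not η.1.1 b with h | h
      · exact h
      · exact absurd h hdir
    rw [permC_of_ne hdir]
    have hxd : x.1 = b := hx1.trans hdir'
    rcases hHF : H e F η with _ | y
    · rcases hH : H e (Star (sided b G F)) η with _ | w
      · rfl
      · exfalso
        have k1 := (H_iff he hK hx1 hx2 w.1).2 ⟨w.2, hH⟩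
        rcases star_inv k1 with ⟨_, h⟩ | ⟨q', h, _⟩
        · rw [hxd, sided_not] at h
          obtain ⟨_, h2⟩ := (H_iff he hF hx1 hx2 _).1 h
          rw [hHF] at h2
          simp at h2
        · rw [hxd, sided_not] at h
          obtain ⟨_, h2⟩ := (H_iff he hF hx1 hx2 _).1 h
          rw [hHF] at h2
          simp at h2
    · have k1 := (H_iff he hF hx1 hx2 y.1).2 ⟨y.2, hHF⟩
      rw [Option.map_some]
      by_cases hyb : y.1.1 = b
      · -- passes on through `G`
        rw [permC_of_eq hyb]
        obtain ⟨x2, hx21, hx22⟩ := y.2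
        have k2 := (H_iff he hG.memL hx21 hx22 (π y).1).2 ⟨(π y).2, (hπ y).1⟩
        have k3 := (F_near he hG.memL hx21 hx22 _).1 k2
        rw [hyb] at k3
        have k4 := shallow he hF k3 (by rw [Bool.not_not, (hπ y).2]; exact hyb)
        rw [sided_swap] at k4
        have k5 : Star (sided b G F) x (π y).1 := by
          obtain ⟨p, hp⟩ : ∃ p, p = (π y).1 := ⟨_, rfl⟩
          obtain ⟨z, hz⟩ : ∃ z, z = y.1 := ⟨_, rfl⟩
          rw [← hp, ← hz] at k4
          rw [← hz] at k1 hyb
          rw [← hp]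
          clear hx1 hx2 k2 k3 hp hz
          obtain ⟨z1, z2⟩ := z
          obtain ⟨x1, x2⟩ := x
          simp only at hyb hxd
          subst hyb
          subst hxd
          exact Star.enter (by rw [sided_not]; exact k1) k4
        obtain ⟨_, k6⟩ := (H_iff he hK hx1 hx2 _).1 k5
        rw [k6]
      · rw [permC_of_ne hyb]
        have k5 : Star (sided b G F) x y.1 := by
          have hy1 : y.1.1 = !b := by
            rcases Bool.eq_or_eq_not y.1.1 b with h | h
            · exact absurd h hyb
            · exact h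
          obtain ⟨z, hz⟩ : ∃ z, z = y.1 := ⟨_, rfl⟩
          rw [← hz] at k1 hy1
          rw [← hz]
          clear hx1 hx2 hz
          obtain ⟨z1, z2⟩ := z
          obtain ⟨x1, x2⟩ := x
          simp only at hy1 hxd
          subst hy1
          subst hxd
          exact Star.bounce (by rw [sided_not]; exact k1)
        obtain ⟨_, k6⟩ := (H_iff he hK hx1 hx2 _).1 k5
        rw [k6]

/-- left multiplication -/
theorem hat_left {e G G' F : Beh Q} (he : Idem e) (hG : Grp e G G') {π : Equiv.Perm (Me e)}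
    (hπ : IsPerm e G π) (hF : IsIn e F) (η : Me e) :
    H e (G * F) η =
      (H e F (permC π (fun η => (hπ η).2) true η)).map (permC π (fun η => (hπ η).2) false) := by
  have h := hat_side he hG hπ hF false η
  rw [sided_false] at h
  exact h

/-- right multiplication -/
theorem hat_right {e G G' F : Beh Q} (he : Idem e) (hG : Grp e G G') {π : Equiv.Perm (Me e)}
    (hπ : IsPerm e G π) (hF : IsIn e F) (η : Me e) :
    H e (F * G) η =
      (H e F (permC π (fun η => (hπ η).2) false η)).map (permC π (fun η => (hπ η).2) true) := by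
  have h := hat_side he hG hπ hF true η
  rw [sided_true] at h
  exact h

theorem isIn_pow {e G : Beh Q} (hG : IsIn e G) (n : ℕ) (hn : 1 ≤ n) : IsIn e (G ^ n) := by
  obtain ⟨m, rfl⟩ : ∃ m, n = m + 1 := ⟨n - 1, by omega⟩
  refine ⟨?_, ?_, ?_⟩
  · rw [pow_succ', ← mul_assoc, hG.left]
  · rw [pow_succ, mul_assoc, hG.right]
  · have key : ∀ k : ℕ, Fn (G ^ k) := by
      intro k
      induction k with
      | zero => rw [pow_zero]; exact Fn.one
      | succ k ih => rw [pow_succ]; exact ih.mul hG.fn
    exact key _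

end HatAux

/-- Powers. -/
theorem isPerm_pow {e G G' : Beh Q} (he : Idem e) (hG : Grp e G G') {π : Equiv.Perm (Me e)}
    (hπ : IsPerm e G π) (n : ℕ) (hn : 1 ≤ n) : IsPerm e (G ^ n) (π ^ n) := by
  obtain ⟨m, rfl⟩ : ∃ m, n = m + 1 := ⟨n - 1, by omega⟩
  clear hn
  induction m with
  | zero => simpa using hπ
  | succ m ih =>
    have hF := isIn_pow hG.memL (m + 1) (by omega)
    intro η
    have h1 := hat_left he hG hπ hF η
    rw [← pow_succ'] at h1
    by_cases hdir : η.1.1 = true
    · rw [permC_of_eq hdir, (ih (π η)).1, Option.map_some,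
        permC_of_ne (by rw [(ih (π η)).2, (hπ η).2, hdir]; simp)] at h1
      have h2 : (π ^ (m + 1 + 1)) η = (π ^ (m + 1)) (π η) := by
        rw [pow_succ π (m + 1), Equiv.Perm.mul_apply]
      rw [h2]
      exact ⟨h1, by rw [(ih (π η)).2, (hπ η).2]⟩
    · rw [permC_of_ne hdir, (ih η).1, Option.map_some,
        permC_of_eq (by rw [(ih η).2]; simpa using hdir)] at h1
      have h2 : (π ^ (m + 1 + 1)) η = π ((π ^ (m + 1)) η) := by
        rw [pow_succ' π (m + 1), Equiv.Perm.mul_apply]
      rw [h2]
      exact ⟨h1, by rw [(hπ _).2, (ih η).2]⟩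

/-- Left multiplication by a group-type behaviour preserves the distance. -/
theorem dist_mul_left [Finite Q] {e G G' F F' : Beh Q} (he : Idem e) (hG : Grp e G G')
    (hF : IsIn e F) (hF' : IsIn e F') : dist e (G * F) (G * F') = dist e F F' := by
  obtain ⟨π, hπ, _⟩ := exists_perm he hG
  unfold dist
  have h1 : {η : Me e | H e (G * F) η ≠ H e (G * F') η} =
      (permC π (fun η => (hπ η).2) true) ⁻¹' {η : Me e | H e F η ≠ H e F' η} := by
    ext η
    simp only [Set.mem_ofPred_eq, Set.mem_preimage]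
    rw [hat_left he hG hπ hF, hat_left he hG hπ hF']
    rw [not_iff_not]
    constructor
    · intro h
      exact Option.map_injective (Equiv.injective _) h
    · intro h
      rw [h]
  rw [h1]
  have h2 : (permC π (fun η => (hπ η).2) true) ⁻¹' {η : Me e | H e F η ≠ H e F' η} =
      (permC π (fun η => (hπ η).2) true).symm '' {η : Me e | H e F η ≠ H e F' η} :=
    (Equiv.image_symm_eq_preimage _ _).symm
  rw [h2, Set.ncard_image_of_injective _ (Equiv.injective _)]

/-- Conjugation by a group-type behaviour is conjugation of the hat map by a permutation `σ`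
(equal to `π` on right-moving labels and to `π⁻¹` on left-moving labels). -/
theorem conj_hat {e G G' : Beh Q} (he : Idem e) (hG : Grp e G G') {π : Equiv.Perm (Me e)}
    (hπ : IsPerm e G π) : ∃ σ : Equiv.Perm (Me e), (∀ η, σ η = η ↔ π η = η) ∧
      ∀ F, IsIn e F → ∀ η, H e (G * F * G') η = (H e F (σ η)).map σ.symm := by
  have hπ' := isPerm_symm he hG hπ
  obtain ⟨A, hA⟩ : ∃ A, A = permC π (fun η => (hπ η).2) true := ⟨_, rfl⟩
  obtain ⟨A', hA'⟩ : ∃ A', A' = permC π (fun η => (hπ η).2) false := ⟨_, rfl⟩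
  obtain ⟨B, hB⟩ : ∃ B, B = permC π.symm (fun η => (hπ' η).2) false := ⟨_, rfl⟩
  obtain ⟨B', hB'⟩ : ∃ B', B' = permC π.symm (fun η => (hπ' η).2) true := ⟨_, rfl⟩
  have hdir : ∀ η, (π η).1.1 = η.1.1 := fun η => (hπ η).2
  have hdir' : ∀ η, (π.symm η).1.1 = η.1.1 := fun η => (hπ' η).2
  have a1 : ∀ η : Me e, η.1.1 = true → A η = π η := fun η h => by rw [hA, permC_of_eq h]
  have a2 : ∀ η : Me e, η.1.1 = false → A η = η := fun η h => by
    rw [hA, permC_of_ne (by rw [h]; simp)]
  have b1 : ∀ η : Me e, η.1.1 = false → B η = π.symm η := fun η h => by rw [hB, permC_of_eq h]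
  have b2 : ∀ η : Me e, η.1.1 = true → B η = η := fun η h => by
    rw [hB, permC_of_ne (by rw [h]; simp)]
  have a1' : ∀ η : Me e, η.1.1 = false → A' η = π η := fun η h => by rw [hA', permC_of_eq h]
  have a2' : ∀ η : Me e, η.1.1 = true → A' η = η := fun η h => by
    rw [hA', permC_of_ne (by rw [h]; simp)]
  have b1' : ∀ η : Me e, η.1.1 = true → B' η = π.symm η := fun η h => by rw [hB', permC_of_eq h]
  have b2' : ∀ η : Me e, η.1.1 = false → B' η = η := fun η h => by
    rw [hB', permC_of_ne (by rw [h]; simp)]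
  refine ⟨B.trans A, ?_, ?_⟩
  · intro η
    rw [Equiv.trans_apply]
    cases h : η.1.1
    · rw [b1 η h, a2 _ (by rw [hdir', h])]
      constructor
      · intro h2
        conv_lhs => rw [← h2]
        rw [Equiv.apply_symm_apply]
      · intro h2
        rw [Equiv.symm_apply_eq]
        exact h2.symm
    · rw [b2 η h, a1 η h]
  · intro F hF η
    have hGF : IsIn e (G * F) := by
      refine ⟨?_, ?_, hG.memL.fn.mul hF.fn⟩
      · rw [← mul_assoc, hG.memL.left]
      · rw [mul_assoc, hF.right]
    rw [hat_right he hG.symm hπ' hGF, ← hB, ← hB', hat_left he hG hπ hF, ← hA, ← hA',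
      Option.map_map]
    congr 1
    funext ζ
    rw [Function.comp_apply, Equiv.eq_symm_apply, Equiv.trans_apply]
    cases h : ζ.1.1
    · rw [a1' ζ h, b2' _ (by rw [hdir, h]), b1 _ (by rw [hdir, h]), Equiv.symm_apply_apply,
        a2 ζ h]
    · rw [a2' ζ h, b1' ζ h, b2 _ (by rw [hdir', h]), a1 _ (by rw [hdir', h]),
        Equiv.apply_symm_apply]

end Vale.Agent.P343
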