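import Vale.Agent.P343.Beh

/-!
P343: definitions for modules M4, M5 (hats of behaviours relative to an idempotent).
-/

namespace Vale.Agent.P343

variable {Q : Type}

/-- Outputs of `e` that keep the direction. -/
def Ms (e : Beh Q) : Set (Lab Q) := {η | ∃ x : Lab Q, x.1 = η.1 ∧ e x η}

/-- The same as a type. -/
abbrev Me (e : Beh Q) : Type := {η : Lab Q // η ∈ Ms e}

/-- `F` is a functional element of `e T e`. -/
structure IsIn (e F : Beh Q) : Prop where
  left : e * F = F
  right : F * e = F
  fn : Fn F

/-- `G` and `G'` are mutually inverse in `e T e`. -/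
structure Grp (e G G' : Beh Q) : Prop where
  memL : IsIn e G
  memR : IsIn e G'
  mul : G * G' = e
  mul' : G' * G = e

/-- An idempotent functional behaviour. -/
structure Idem (e : Beh Q) : Prop where
  idem : e * e = e
  fn : Fn e

open Classical in
/-- The hat map of `F ∈ eTe`: from `η ∈ Ms e`, apply `F` to any `x` of the same direction with
`e x η`. -/
noncomputable def H (e F : Beh Q) (η : Me e) : Option (Me e) :=
  if h : ∃ ζ : Me e, ∃ x : Lab Q, x.1 = η.1.1 ∧ e x η.1 ∧ F x ζ.1 then some h.choose else none

/-- `π` is the permutation of `Me e` given by the group-type behaviour `G`. -/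
def IsPerm (e G : Beh Q) (π : Equiv.Perm (Me e)) : Prop :=
  ∀ η : Me e, H e G η = some (π η) ∧ (π η).1.1 = η.1.1

/-- The distance of two elements of `eTe`. -/
noncomputable def dist (e F F' : Beh Q) : ℕ := {η : Me e | H e F η ≠ H e F' η}.ncard

end Vale.Agent.P343
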