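import Mathlib

/-! P343: the concrete nested language. -/

namespace Vale.Agent.P343

/-- The letters: `rot i` (level `i`), `opn i l` (level `i`, opens an inner word of level `i + 1`
with context `l`), and `tst` (level `D`). -/
inductive Ltr (m D : ℕ) : Type
  | rot (i : Fin (D + 1)) : Ltr m D
  | opn (i : Fin D) (l : Fin m) : Ltr m D
  | tst : Ltr m D

/-- `accF p w i l t`: the word `w` is accepted from the context `(i, l, t)`. -/
def accF (p : ℕ → ℕ) {m D : ℕ} : List (Ltr m D) → ℕ → ℕ → ℕ → Prop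
  | [], _, _, _ => False
  | Ltr.rot j :: w, i, l, t => (j.1 = i ∧ accF p w i l (t + 1)) ∨ (i < j.1 ∧ accF p w i l t)
  | Ltr.opn j l' :: w, i, l, t =>
      (j.1 = i ∧ (accF p w i l t ∨ (p l ∣ t ∧ accF p w (i + 1) l'.1 0))) ∨
      (i < j.1 ∧ accF p w i l t)
  | Ltr.tst :: w, i, l, t => (i = D ∧ p l ∣ t) ∨ (i ≤ D ∧ accF p w i l t)

/-- `Lvl i w`: `w` is a word of level `i`. -/
inductive Lvl {m D : ℕ} : ℕ → List (Ltr m D) → Prop
  | nil (i : ℕ) : Lvl i []
  | rot (i : Fin (D + 1)) (w : List (Ltr m D)) : Lvl i.1 w → Lvl i.1 (Ltr.rot i :: w)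
  | opn (i : Fin D) (l : Fin m) (v w : List (Ltr m D)) : Lvl (i.1 + 1) v → Lvl i.1 w →
      Lvl i.1 (Ltr.opn i l :: (v ++ w))
  | tst (w : List (Ltr m D)) : Lvl D w → Lvl D (Ltr.tst :: w)

open Classical in
/-- The number of letters `rot i` in a word. -/
noncomputable def shF {m D : ℕ} (i : ℕ) (w : List (Ltr m D)) : ℕ :=
  w.countP (fun a => decide (∃ j : Fin (D + 1), j.1 = i ∧ a = Ltr.rot j))

end Vale.Agent.P343
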