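import Vale.Agent.P343.Defs
import Vale.Agent.P343.LangDefs

/-! P343, module LANG2: the small one-way automaton. -/

namespace Vale.Agent.P343

theorem finite_Ltr (m D : ℕ) : Finite (Ltr m D) := by
  let f : Ltr m D → Fin (D + 1) ⊕ (Fin D × Fin m) ⊕ Unit := fun a =>
    match a with
    | Ltr.rot i => Sum.inl i
    | Ltr.opn i l => Sum.inr (Sum.inl (i, l))
    | Ltr.tst => Sum.inr (Sum.inr ())
  apply Finite.of_injective f
  intro a b hab
  cases a <;> cases b <;> simp_all [f]

/-- The context value of a machine state. -/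
def ctxVal {m D B : ℕ} (q : Option (Fin (D + 1) × Fin m × Fin B)) : Option (ℕ × ℕ × ℕ) :=
  q.map (fun s => (s.1.1, s.2.1.1, s.2.2.1))

/-- One letter transition of the contexts. -/
def nxt (p : ℕ → ℕ) {m D : ℕ} : Ltr m D → ℕ → ℕ → ℕ → Option (ℕ × ℕ × ℕ) → Prop
  | Ltr.rot j, i, l, t, x =>
      (j.1 = i ∧ x = some (i, l, (t + 1) % p l)) ∨ (i < j.1 ∧ x = some (i, l, t))
  | Ltr.opn j l', i, l, t, x =>
      (j.1 = i ∧ (x = some (i, l, t) ∨ (p l ∣ t ∧ x = some (i + 1, l'.1, 0)))) ∨
      (i < j.1 ∧ x = some (i, l, t))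
  | Ltr.tst, i, l, t, x => (i = D ∧ p l ∣ t ∧ x = none) ∨ (i ≤ D ∧ x = some (i, l, t))

/-- The transitions of the machine. -/
def mtrans (p : ℕ → ℕ) {m D B : ℕ} (q : Option (Fin (D + 1) × Fin m × Fin B)) :
    Sym (Ltr m D) → Set (Option (Fin (D + 1) × Fin m × Fin B) × Move)
  | Sym.lend => {x | x.2 = Move.right ∧ x.1 = q}
  | Sym.letter a => {x | x.2 = Move.right ∧
      ∃ s, q = some s ∧ nxt p a s.1.1 s.2.1.1 s.2.2.1 (ctxVal x.1)}
  | Sym.rend => ∅

/-- The machine. -/
def mach (p : ℕ → ℕ) (m D B : ℕ) (hm : 0 < m) (hB : 0 < B) : TwoNFA (Ltr m D) where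
  State := Option (Fin (D + 1) × Fin m × Fin B)
  finite := inferInstance
  start := some (0, ⟨0, hm⟩, ⟨0, hB⟩)
  accept := {none}
  trans := mtrans p
  lend_left := by
    intro q q' h
    exact absurd h.1 (by simp)
  rend_right := by
    intro q q' h
    exact h

theorem accF_mod (p : ℕ → ℕ) {m D : ℕ} (w : List (Ltr m D)) :
    ∀ i l t t', t ≡ t' [MOD p l] → (accF p w i l t ↔ accF p w i l t') := by
  induction w with
  | nil => intro i l t t' _; exact Iff.rfl
  | cons a w ih =>
    intro i l t t' h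
    have hd : p l ∣ t ↔ p l ∣ t' := by
      rw [← Nat.modEq_zero_iff_dvd, ← Nat.modEq_zero_iff_dvd]
      exact ⟨fun h1 => h.symm.trans h1, fun h1 => h.trans h1⟩
    cases a with
    | rot j =>
      simp only [accF]
      rw [ih i l (t + 1) (t' + 1) (h.add_right 1), ih i l t t' h]
    | opn j l' =>
      simp only [accF]
      rw [ih i l t t' h, hd]
    | tst =>
      simp only [accF]
      rw [ih i l t t' h, hd]

theorem accF_cons (p : ℕ → ℕ) {m D : ℕ} (a : Ltr m D) (w : List (Ltr m D)) (i l t : ℕ) :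
    accF p (a :: w) i l t ↔ (nxt p a i l t none ∨
      ∃ i' l' t', nxt p a i l t (some (i', l', t')) ∧ accF p w i' l' t') := by
  cases a with
  | rot j =>
    simp only [accF, nxt]
    constructor
    · rintro (⟨h1, h2⟩ | ⟨h1, h2⟩)
      · refine Or.inr ⟨i, l, (t + 1) % p l, Or.inl ⟨h1, rfl⟩, ?_⟩
        rw [accF_mod p w i l ((t + 1) % p l) (t + 1) (Nat.mod_modEq _ _)]
        exact h2
      · exact Or.inr ⟨i, l, t, Or.inr ⟨h1, rfl⟩, h2⟩
    · rintro ((⟨_, h⟩ | ⟨_, h⟩) | ⟨i', l', t', (⟨h1, h⟩ | ⟨h1, h⟩), h2⟩)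
      · exact absurd h (by simp)
      · exact absurd h (by simp)
      · simp only [Option.some.injEq, Prod.mk.injEq] at h
        obtain ⟨rfl, rfl, rfl⟩ := h
        rw [accF_mod p w i' l' ((t + 1) % p l') (t + 1) (Nat.mod_modEq _ _)] at h2
        exact Or.inl ⟨h1, h2⟩
      · simp only [Option.some.injEq, Prod.mk.injEq] at h
        obtain ⟨rfl, rfl, rfl⟩ := h
        exact Or.inr ⟨h1, h2⟩
  | opn j k =>
    simp only [accF, nxt]
    constructor
    · rintro (⟨h1, h2 | ⟨h2, h3⟩⟩ | ⟨h1, h2⟩)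
      · exact Or.inr ⟨i, l, t, Or.inl ⟨h1, Or.inl rfl⟩, h2⟩
      · exact Or.inr ⟨i + 1, k.1, 0, Or.inl ⟨h1, Or.inr ⟨h2, rfl⟩⟩, h3⟩
      · exact Or.inr ⟨i, l, t, Or.inr ⟨h1, rfl⟩, h2⟩
    · rintro ((⟨_, h | ⟨_, h⟩⟩ | ⟨_, h⟩) | ⟨i', l', t', (⟨h1, h | ⟨h3, h⟩⟩ | ⟨h1, h⟩), h2⟩)
      · exact absurd h (by simp)
      · exact absurd h (by simp)
      · exact absurd h (by simp)
      · simp only [Option.some.injEq, Prod.mk.injEq] at h
        obtain ⟨rfl, rfl, rfl⟩ := h
        exact Or.inl ⟨h1, Or.inl h2⟩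
      · simp only [Option.some.injEq, Prod.mk.injEq] at h
        obtain ⟨rfl, rfl, rfl⟩ := h
        exact Or.inl ⟨h1, Or.inr ⟨h3, h2⟩⟩
      · simp only [Option.some.injEq, Prod.mk.injEq] at h
        obtain ⟨rfl, rfl, rfl⟩ := h
        exact Or.inr ⟨h1, h2⟩
  | tst =>
    simp only [accF, nxt]
    constructor
    · rintro (⟨h1, h2⟩ | ⟨h1, h2⟩)
      · exact Or.inl (Or.inl ⟨h1, h2, trivial⟩)
      · exact Or.inr ⟨i, l, t, Or.inr ⟨h1, rfl⟩, h2⟩
    · rintro ((⟨h1, h2, _⟩ | ⟨_, h⟩) | ⟨i', l', t', (⟨_, _, h⟩ | ⟨h1, h⟩), h2⟩)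
      · exact Or.inl ⟨h1, h2⟩
      · exact absurd h (by simp)
      · exact absurd h (by simp)
      · simp only [Option.some.injEq, Prod.mk.injEq] at h
        obtain ⟨rfl, rfl, rfl⟩ := h
        exact Or.inr ⟨h1, h2⟩

/-- Every context transition from a machine state is realized by a machine state. -/
theorem nxt_real (p : ℕ → ℕ) {m D B : ℕ} (hp : ∀ l < m, 0 < p l ∧ p l ≤ B) (hB : 0 < B)
    (a : Ltr m D) (s : Fin (D + 1) × Fin m × Fin B) (x : Option (ℕ × ℕ × ℕ))
    (h : nxt p a s.1.1 s.2.1.1 s.2.2.1 x) :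
    ∃ q : Option (Fin (D + 1) × Fin m × Fin B), ctxVal q = x := by
  obtain ⟨i, l, t⟩ := s
  have hl := hp l.1 l.2
  have same : ∃ q : Option (Fin (D + 1) × Fin m × Fin B), ctxVal q = some (i.1, l.1, t.1) :=
    ⟨some (i, l, t), rfl⟩
  cases a with
  | rot j =>
    simp only [nxt] at h
    rcases h with ⟨_, rfl⟩ | ⟨_, rfl⟩
    · exact ⟨some (i, l, ⟨(t.1 + 1) % p l.1, lt_of_lt_of_le (Nat.mod_lt _ hl.1) hl.2⟩), rfl⟩
    · exact same
  | opn j k =>
    simp only [nxt] at h
    rcases h with ⟨hj, rfl | ⟨_, rfl⟩⟩ | ⟨_, rfl⟩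
    · exact same
    · exact ⟨some (⟨i.1 + 1, by have := j.2; omega⟩, k, ⟨0, hB⟩), rfl⟩
    · exact same
  | tst =>
    simp only [nxt] at h
    rcases h with ⟨_, _, rfl⟩ | ⟨_, rfl⟩
    · exact ⟨none, rfl⟩
    · exact same

theorem tape_get {α : Type} (v : List α) (a : α) (u : List α) :
    (TwoNFA.tape (v ++ a :: u))[v.length + 1]? = some (Sym.letter a) := by
  simp [TwoNFA.tape]

theorem tape_get_end {α : Type} (v : List α) :
    (TwoNFA.tape v)[v.length + 1]? = some (Sym.rend) := by
  simp [TwoNFA.tape]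

theorem ctxVal_none {m D B : ℕ} {q : Option (Fin (D + 1) × Fin m × Fin B)}
    (h : ctxVal q = none) : q = none := by
  cases q with
  | none => rfl
  | some s => simp [ctxVal] at h

theorem reach_iff (p : ℕ → ℕ) {m D B : ℕ} (hm : 0 < m) (hB : 0 < B)
    (hp : ∀ l < m, 0 < p l ∧ p l ≤ B) (u : List (Ltr m D)) :
    ∀ (v : List (Ltr m D)) (s : Fin (D + 1) × Fin m × Fin B),
      (∃ k, Relation.ReflTransGen (TwoNFA.Step (mach p m D B hm hB) (v ++ u))
        ((some s : Option (Fin (D + 1) × Fin m × Fin B)), v.length + 1)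
        ((none : Option (Fin (D + 1) × Fin m × Fin B)), k)) ↔
      accF p u s.1.1 s.2.1.1 s.2.2.1 := by
  induction u with
  | nil =>
    intro v s
    constructor
    · rintro ⟨k, hk⟩
      exfalso
      rcases Relation.ReflTransGen.cases_head hk with h | ⟨c, hc, _⟩
      · exact Option.some_ne_none s (congrArg Prod.fst h)
      · cases hc with
        | left hg ht =>
          rw [List.append_nil, tape_get_end] at hg
          obtain rfl := Option.some.inj hg
          exact ht
        | stay hg ht =>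
          rw [List.append_nil, tape_get_end] at hg
          obtain rfl := Option.some.inj hg
          exact ht
        | right hg ht =>
          rw [List.append_nil, tape_get_end] at hg
          obtain rfl := Option.some.inj hg
          exact ht
    · intro h
      exact absurd h (by simp [accF])
  | cons a u ih =>
    intro v s
    have hlen : (v ++ [a]).length + 1 = v.length + 1 + 1 := by simp
    have happ : (v ++ [a]) ++ u = v ++ a :: u := by simp
    rw [accF_cons]
    constructor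
    · rintro ⟨k, hk⟩
      rcases Relation.ReflTransGen.cases_head hk with h | ⟨c, hc, hrest⟩
      · exact absurd (congrArg Prod.fst h) (Option.some_ne_none s)
      · cases hc with
        | left hg ht =>
          rw [tape_get] at hg
          obtain rfl := Option.some.inj hg
          exact absurd ht.1 (by simp)
        | stay hg ht =>
          rw [tape_get] at hg
          obtain rfl := Option.some.inj hg
          exact absurd ht.1 (by simp)
        | @right q q' i b hg ht =>
          rw [tape_get] at hg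
          obtain rfl := Option.some.inj hg
          obtain ⟨_, s1, hs1, hn⟩ := ht
          obtain rfl := Option.some.inj hs1
          change Option (Fin (D + 1) × Fin m × Fin B) at q'
          cases q' with
          | none => exact Or.inl hn
          | some s' =>
            refine Or.inr ⟨s'.1.1, s'.2.1.1, s'.2.2.1, hn, ?_⟩
            rw [← ih (v ++ [a]) s']
            refine ⟨k, ?_⟩
            rw [happ, hlen]
            exact hrest
    · rintro (h | ⟨i', l', t', h, hacc⟩)
      · refine ⟨v.length + 1 + 1, Relation.ReflTransGen.single ?_⟩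
        exact TwoNFA.Step.right (tape_get v a u) ⟨rfl, s, rfl, h⟩
      · obtain ⟨q, hq⟩ := nxt_real p hp hB a s _ h
        cases q with
        | none => exact absurd hq (by simp [ctxVal])
        | some s' =>
          have hq' : s'.1.1 = i' ∧ s'.2.1.1 = l' ∧ s'.2.2.1 = t' := by
            simpa [ctxVal] using hq
          obtain ⟨rfl, rfl, rfl⟩ := hq'
          rw [← ih (v ++ [a]) s'] at hacc
          obtain ⟨k, hk⟩ := hacc
          rw [happ, hlen] at hk
          refine ⟨k, Relation.ReflTransGen.head ?_ hk⟩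
          exact TwoNFA.Step.right (tape_get v a u) ⟨rfl, s, rfl, h⟩

theorem exists_machine (m D B : ℕ) (p : ℕ → ℕ) (hm : 0 < m) (hp : ∀ l < m, 0 < p l ∧ p l ≤ B) :
    ∃ A : TwoNFA (Ltr m D), A.OneWay ∧ A.size ≤ (D + 1) * m * B + 1 ∧
      ∀ w, (w ∈ A.language ↔ accF p w 0 0 0) := by
  have hB : 0 < B := lt_of_lt_of_le (hp 0 hm).1 (hp 0 hm).2
  refine ⟨mach p m D B hm hB, ?_, ?_, ?_⟩
  · intro q a q' h
    cases a with
    | lend => exact absurd h.1 (by simp)
    | letter a => exact absurd h.1 (by simp)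
    | rend => exact h
  · show Nat.card (Option (Fin (D + 1) × Fin m × Fin B)) ≤ _
    simp [Nat.card_eq_fintype_card, mul_assoc]
  · intro w
    have key := reach_iff p hm hB hp w [] (0, ⟨0, hm⟩, ⟨0, hB⟩)
    have hz : accF p w 0 0 0 ↔ accF p w ((0 : Fin (D + 1)) : ℕ) 0 0 := by simp
    rw [hz, ← key]
    constructor
    · rintro ⟨q, hq, i, hi⟩
      have hq' : q = (none : Option (Fin (D + 1) × Fin m × Fin B)) := hq
      subst hq'
      refine ⟨i, ?_⟩
      rcases Relation.ReflTransGen.cases_head hi with h | ⟨c, hc, hrest⟩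
      · exact absurd (congrArg Prod.fst h) (by simp [mach])
      · have hg0 : (TwoNFA.tape w)[0]? = some Sym.lend := by simp [TwoNFA.tape]
        cases hc with
        | stay hg ht =>
          rw [hg0] at hg
          obtain rfl := Option.some.inj hg
          exact absurd ht.1 (by simp)
        | right hg ht =>
          rw [hg0] at hg
          obtain rfl := Option.some.inj hg
          obtain ⟨_, h2⟩ := ht
          simp only at h2
          subst h2
          exact hrest
    · rintro ⟨k, hk⟩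
      refine ⟨none, rfl, k, Relation.ReflTransGen.head ?_ hk⟩
      exact TwoNFA.Step.right (a := Sym.lend) (by simp [TwoNFA.tape]) ⟨rfl, rfl⟩

end Vale.Agent.P343
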