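import Vale.Agent.P343.LangWords
import Vale.Agent.P343.LangAut

/-! P343, module M6: the nested language and its small one-way automaton. -/

namespace Vale.Agent.P343

theorem exists_lang (m D B : ℕ) (p : ℕ → ℕ) (hm : 0 < m) (hp : ∀ l < m, 0 < p l ∧ p l ≤ B) :
    ∃ (α : Type) (_ : Finite α) (A : TwoNFA α) (N : NLang α m D p),
      A.OneWay ∧ A.size ≤ (D + 1) * m * B + 1 ∧
      ∀ w ∈ N.W 0, (w ∈ A.language ↔ N.acc 0 0 0 w) := by
  obtain ⟨A, h1, h2, h3⟩ := exists_machine m D B p hm hp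
  obtain ⟨N, hN⟩ := exists_nlang m D hm p
  exact ⟨Ltr m D, finite_Ltr m D, A, N, h1, h2, fun w _ => (h3 w).trans (hN w).symm⟩

end Vale.Agent.P343
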