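import Vale.Agent.P343.LangDefs
import Vale.Agent.P343.NLang

/-! P343, module LANG1: the concrete language is a nested language. -/

namespace Vale.Agent.P343
namespace LangW

variable {m D : ℕ} {p : ℕ → ℕ}

theorem shF_cons_rot (i : ℕ) (j : Fin (D + 1)) (w : List (Ltr m D)) :
    shF i (Ltr.rot j :: w) = shF i w + if j.1 = i then 1 else 0 := by
  unfold shF
  rw [List.countP_cons]
  congr 1
  by_cases h : j.1 = i
  · rw [if_pos h, if_pos]
    simp only [decide_eq_true_eq]
    exact ⟨j, h, rfl⟩
  · rw [if_neg h, if_neg]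
    simp only [decide_eq_true_eq]
    rintro ⟨k, hk, hk'⟩
    injection hk' with hk'
    exact h (hk' ▸ hk)

theorem shF_cons_opn (i : ℕ) (j : Fin D) (l : Fin m) (w : List (Ltr m D)) :
    shF i (Ltr.opn j l :: w) = shF i w := by
  unfold shF
  rw [List.countP_cons, if_neg, add_zero]
  simp

theorem shF_cons_tst (i : ℕ) (w : List (Ltr m D)) :
    shF i (Ltr.tst :: w) = shF i w := by
  unfold shF
  rw [List.countP_cons, if_neg, add_zero]
  simp

theorem shF_append (i : ℕ) (u v : List (Ltr m D)) : shF i (u ++ v) = shF i u + shF i v := by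
  unfold shF; rw [List.countP_append]

theorem shF_nil (i : ℕ) : shF i ([] : List (Ltr m D)) = 0 := by
  unfold shF; simp

/-- inner words have no letters of lower level. -/
theorem shF_inner {j : ℕ} {w : List (Ltr m D)} (h : Lvl j w) : ∀ i < j, shF i w = 0 := by
  induction h with
  | nil j => intro i _; exact shF_nil i
  | rot j w _ ih =>
    intro i hi
    rw [shF_cons_rot, ih i hi, if_neg (by omega)]
  | opn j l v w _ _ ih1 ih2 =>
    intro i hi
    rw [shF_cons_opn, shF_append, ih1 i (by omega), ih2 i hi]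
  | tst w _ ih =>
    intro i hi
    rw [shF_cons_tst, ih i hi]

/-- threads of low level ignore inner words. -/
theorem acc_inner {j : ℕ} {w : List (Ltr m D)} (h : Lvl j w) : ∀ i < j, ∀ (u : List (Ltr m D))
    (l t : ℕ), accF p (w ++ u) i l t ↔ accF p u i l t := by
  induction h with
  | nil j => intro i _ u l t; rfl
  | rot j w _ ih =>
    intro i hi u l t
    rw [List.cons_append, accF]
    simp only [ih i hi]
    constructor
    · rintro (⟨h, -⟩ | ⟨-, h⟩)
      · omega
      · exact h
    · exact fun h => Or.inr ⟨hi, h⟩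
  | opn j l v w _ _ ih1 ih2 =>
    intro i hi u l' t
    rw [List.cons_append, accF, List.append_assoc, ih1 i (by omega), ih2 i hi]
    constructor
    · rintro (⟨h, -⟩ | ⟨-, h⟩)
      · omega
      · exact h
    · exact fun h => Or.inr ⟨hi, h⟩
  | tst w _ ih =>
    intro i hi u l t
    rw [List.cons_append, accF, ih i hi]
    constructor
    · rintro (⟨h, -⟩ | ⟨-, h⟩)
      · omega
      · exact h
    · exact fun h => Or.inr ⟨hi.le, h⟩

/-- No thread of level `> j` survives the word. -/
def Dead (p : ℕ → ℕ) (j : ℕ) (x : List (Ltr m D)) : Prop :=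
  ∀ j' > j, ∀ l t, ¬ accF p x j' l t

theorem dead_nil (j : ℕ) : Dead p j ([] : List (Ltr m D)) := by
  intro j' _ l t h
  simp [accF] at h

theorem dead_mono {j k : ℕ} (hjk : j ≤ k) {x : List (Ltr m D)} (h : Dead p j x) : Dead p k x :=
  fun j' hj' => h j' (lt_of_le_of_lt hjk hj')

theorem dead_append {j : ℕ} {w : List (Ltr m D)} (h : Lvl j w) {x : List (Ltr m D)}
    (hx : Dead p j x) : Dead p j (w ++ x) := by
  cases h with
  | nil => exact hx
  | rot i w hw =>
    intro j' hj' l t h
    rw [List.cons_append, accF] at h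
    rcases h with ⟨h, -⟩ | ⟨h, -⟩ <;> omega
  | opn i l v w hv hw =>
    intro j' hj' l' t h
    rw [List.cons_append, accF] at h
    rcases h with ⟨h, -⟩ | ⟨h, -⟩ <;> omega
  | tst w hw =>
    intro j' hj' l t h
    rw [List.cons_append, accF] at h
    rcases h with ⟨h, -⟩ | ⟨h, -⟩ <;> omega

theorem dead_of_lvl {j : ℕ} {w : List (Ltr m D)} (h : Lvl j w) : Dead p j w := by
  have := dead_append h (dead_nil (p := p) j)
  rwa [List.append_nil] at this

/-- the splitting lemma. -/
theorem split {j : ℕ} {w : List (Ltr m D)} (h : Lvl j w) : ∀ (x : List (Ltr m D)), Dead p j x →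
    ∀ l t : ℕ, (accF p (w ++ x) j l t ↔ accF p w j l t ∨ accF p x j l (t + shF j w)) := by
  induction h with
  | nil j =>
    intro x _ l t
    rw [List.nil_append, shF_nil, add_zero]
    constructor
    · exact Or.inr
    · rintro (h | h)
      · simp [accF] at h
      · exact h
  | rot j w _ ih =>
    intro x hx l t
    rw [List.cons_append, accF, accF, ih x hx, shF_cons_rot, if_pos rfl]
    have e : t + 1 + shF j.1 w = t + (shF j.1 w + 1) := by ring
    rw [e]
    simp only [lt_irrefl, false_and, or_false, true_and]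
  | opn j l' a w ha hw ih1 ih2 =>
    intro x hx l t
    have hd1 : Dead p j.1 (w ++ x) := dead_append hw hx
    have hd2 : Dead p j.1 w := dead_of_lvl hw
    have h1 := ih1 (w ++ x) (dead_mono (Nat.le_succ _) hd1) l'.1 0
    have h2 := ih1 w (dead_mono (Nat.le_succ _) hd2) l'.1 0
    have h3 : ¬ accF p (w ++ x) (j.1 + 1) l'.1 (0 + shF (j.1 + 1) a) := hd1 _ (by omega) _ _
    have h4 : ¬ accF p w (j.1 + 1) l'.1 (0 + shF (j.1 + 1) a) := hd2 _ (by omega) _ _
    rw [List.cons_append, accF, accF, List.append_assoc, h1, h2,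
      acc_inner ha _ (Nat.lt_succ_self _), acc_inner ha _ (Nat.lt_succ_self _), ih2 x hx,
      shF_cons_opn, shF_append, shF_inner ha _ (Nat.lt_succ_self _), zero_add]
    rw [zero_add] at h3 h4
    simp only [lt_irrefl, false_and, or_false, true_and, h3, h4, zero_add]
    tauto
  | tst w _ ih =>
    intro x hx l t
    rw [List.cons_append, accF, accF, ih x hx, shF_cons_tst]
    simp only [le_refl, true_and]
    tauto

theorem acc_mod (w : List (Ltr m D)) : ∀ (i l t t' : ℕ), t ≡ t' [MOD p l] →
    (accF p w i l t ↔ accF p w i l t') := by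
  induction w with
  | nil => intro i l t t' _; simp [accF]
  | cons a w ih =>
    intro i l t t' h
    have hd : p l ∣ t ↔ p l ∣ t' := h.dvd_iff (dvd_refl _)
    cases a with
    | rot j => rw [accF, accF, ih i l (t + 1) (t' + 1) (h.add_right 1), ih i l t t' h]
    | opn j l' => rw [accF, accF, ih i l t t' h, hd]
    | tst => rw [accF, accF, ih i l t t' h, hd]

theorem append_mem {j : ℕ} {u : List (Ltr m D)} (h : Lvl j u) : ∀ {v : List (Ltr m D)}, Lvl j v →
    Lvl j (u ++ v) := by
  induction h with
  | nil j => intro v hv; exact hv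
  | rot j w _ ih => intro v hv; exact Lvl.rot j _ (ih hv)
  | opn j l a w ha _ _ ih2 =>
    intro v hv
    rw [List.cons_append, List.append_assoc]
    exact Lvl.opn j l a _ ha (ih2 hv)
  | tst w _ ih => intro v hv; exact Lvl.tst _ (ih hv)

/-- the letters. -/
def rotL (m D i : ℕ) : Ltr m D := if h : i < D + 1 then Ltr.rot ⟨i, h⟩ else Ltr.tst

def opnL (m D i l : ℕ) : Ltr m D :=
  if h : i < D ∧ l < m then Ltr.opn ⟨i, h.1⟩ ⟨l, h.2⟩ else Ltr.tst

end LangW

open LangW

set_option linter.unusedVariables false in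
theorem exists_nlang (m D : ℕ) (hm : 0 < m) (p : ℕ → ℕ) :
    ∃ N : NLang (Ltr m D) m D p, ∀ w, (N.acc 0 0 0 w ↔ accF p w 0 0 0) := by
  have hopn : ∀ i < D, ∀ l < m, ∀ v : List (Ltr m D), Lvl (i + 1) v →
      Lvl i (opnL m D i l :: v) := by
    intro i hi l hl v hv
    rw [opnL, dif_pos ⟨hi, hl⟩]
    have := Lvl.opn (m := m) (D := D) ⟨i, hi⟩ ⟨l, hl⟩ v [] hv (Lvl.nil i)
    rwa [List.append_nil] at this
  refine ⟨{
    W := fun i => {w | Lvl i w}
    sh := fun i w => shF i w
    acc := fun i l t w => accF p w i l t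
    rot := rotL m D
    opn := opnL m D
    tst := Ltr.tst
    nil_mem := fun i _ => Lvl.nil i
    append_mem := fun i _ u hu v hv => append_mem hu hv
    sh_nil := fun i _ => shF_nil i
    sh_append := fun i _ u _ v _ => shF_append i u v
    acc_nil := fun i _ l _ t h => by simp [accF] at h
    acc_append := fun i _ l _ t u hu v hv => split hu v (dead_of_lvl hv) l t
    acc_mod := fun i _ l _ t t' h w _ => acc_mod w i l t t' h
    rot_mem := fun i hi => by
      rw [rotL, dif_pos (by omega)]
      exact Lvl.rot ⟨i, _⟩ [] (Lvl.nil i)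
    sh_rot := fun i hi => by
      rw [rotL, dif_pos (by omega), shF_cons_rot, shF_nil, if_pos rfl]
    acc_rot := fun i hi l _ t h => by
      rw [rotL, dif_pos (by omega)] at h
      simp [accF] at h
    opn_mem := fun i hi l hl v hv => hopn i hi l hl v hv
    sh_opn := fun i hi l hl v hv => by
      rw [opnL, dif_pos ⟨hi, hl⟩, shF_cons_opn]
      exact shF_inner hv i (Nat.lt_succ_self _)
    acc_opn := fun i hi l hl v hv l' hl' t => by
      rw [opnL, dif_pos ⟨hi, hl⟩, accF]
      have h1 := acc_inner (p := p) hv i (Nat.lt_succ_self _) [] l' t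
      rw [List.append_nil] at h1
      rw [h1]
      simp [accF]
    tst_mem := Lvl.tst [] (Lvl.nil D)
    sh_tst := by rw [shF_cons_tst, shF_nil]
    acc_tst := fun l hl t => by simp [accF] }, fun w => Iff.rfl⟩

end Vale.Agent.P343
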