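import Vale.Agent.P343.Core
import Vale.Agent.P343.Bridge
import Vale.Agent.P343.Lang
import Vale.Agent.P343.Arith

/-! P343: the exponential lower bound. -/

namespace Vale.Agent.P343

theorem exponential_gap : ∃ C : ℕ, ∀ L : ℕ, ∃ (α : Type) (_ : Finite α) (A : TwoNFA α),
    A.OneWay ∧ A.size ≤ C * (L + 1) ^ 4 ∧
    ∀ B : TwoNFA α, B.Deterministic → B.language = A.language → 2 ^ L ≤ B.size := by
  obtain ⟨C, hC⟩ := exists_primes
  refine ⟨108 * 6 * C + 1, fun L => ?_⟩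
  obtain ⟨p, hp, hinj, hpC⟩ := hC (6 * (L + 1)) (by omega)
  obtain ⟨α, hα, A, N, hone, hsize, hlang⟩ := exists_lang (6 * (L + 1)) (L + 2)
    (C * (6 * (L + 1)) ^ 2) p (by omega) (fun l hl => ⟨(hp l hl).pos, hpC l hl⟩)
  refine ⟨α, hα, A, hone, hsize.trans ?_, fun B hB hBA => ?_⟩
  · have h1 : (L + 2 + 1) * (6 * (L + 1)) * (C * (6 * (L + 1)) ^ 2) ≤
        (3 * (L + 1)) * (6 * (L + 1)) * (C * (6 * (L + 1)) ^ 2) := by
      gcongr; omega
    have h2 : 1 ≤ (L + 1) ^ 4 := Nat.one_le_pow _ _ (by omega)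
    calc _ ≤ (3 * (L + 1)) * (6 * (L + 1)) * (C * (6 * (L + 1)) ^ 2) + 1 := by omega
      _ = 108 * 6 * C * (L + 1) ^ 4 + 1 := by ring
      _ ≤ 108 * 6 * C * (L + 1) ^ 4 + (L + 1) ^ 4 := by omega
      _ = _ := by ring
  · obtain ⟨Q, hQ, μ, hcard, h1, hmul, hfn, hrec⟩ := exists_beh B hB
    have hcore := core N μ (by omega) hp hinj h1 hmul hfn (fun u hu v hv huv => by
      rw [← hlang u hu, ← hlang v hv, ← hBA]; exact hrec u v huv)
    have hlab : Nat.card (Lab Q) = 2 * (B.size + 1) := by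
      rw [Nat.card_prod, hcard]; simp
    rw [hlab] at hcore
    exact final_arith L B.size hcore

end Vale.Agent.P343
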