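import Mathlib

/-! P343: an exponential lower bound excludes every polynomial. -/

namespace Vale.Agent.P343

theorem poly_le (p : Polynomial ℝ) : ∃ K : ℝ, 0 ≤ K ∧ ∃ d : ℕ, ∀ x : ℝ, 0 ≤ x →
    p.eval x ≤ K * (x + 1) ^ d := by
  refine ⟨∑ i ∈ Finset.range (p.natDegree + 1), |p.coeff i|, Finset.sum_nonneg fun i _ =>
    abs_nonneg _, p.natDegree, fun x hx => ?_⟩
  rw [Polynomial.eval_eq_sum_range, Finset.sum_mul]
  refine Finset.sum_le_sum fun i hi => ?_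
  have hi' : i ≤ p.natDegree := Nat.lt_succ_iff.1 (Finset.mem_range.1 hi)
  have h1 : x ^ i ≤ (x + 1) ^ p.natDegree :=
    (pow_le_pow_left₀ hx (by linarith) i).trans (pow_le_pow_right₀ (by linarith) hi')
  calc p.coeff i * x ^ i ≤ |p.coeff i| * x ^ i :=
        mul_le_mul_of_nonneg_right (le_abs_self _) (pow_nonneg hx i)
    _ ≤ _ := mul_le_mul_of_nonneg_left h1 (abs_nonneg _)

/-- If `2 ^ L ≤ p(s)` for some `s ≤ C (L+1)^4`, for every `L`, we get a contradiction. -/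
theorem no_poly (C : ℕ) (p : Polynomial ℝ)
    (h : ∀ L : ℕ, ∃ s : ℕ, s ≤ C * (L + 1) ^ 4 ∧ (2 : ℝ) ^ L ≤ p.eval (s : ℝ)) : False := by
  obtain ⟨K, hK, d, hp⟩ := poly_le p
  have ht := tendsto_pow_const_div_const_pow_of_one_lt (4 * d) (r := (2 : ℝ)) (by norm_num)
  have hpos : (0 : ℝ) < 1 / (2 * (K * (C + 1) ^ d) + 1) := by positivity
  obtain ⟨n, hn1, hn⟩ := ((Filter.eventually_ge_atTop 1).and
    (ht.eventually (gt_mem_nhds hpos))).exists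
  obtain ⟨L, rfl⟩ : ∃ L, n = L + 1 := ⟨n - 1, by omega⟩
  obtain ⟨s, hs, hps⟩ := h L
  have hs' : (s : ℝ) ≤ C * ((L : ℝ) + 1) ^ 4 := by exact_mod_cast hs
  have hL : (1 : ℝ) ≤ ((L : ℝ) + 1) ^ 4 := one_le_pow₀ (by linarith [Nat.cast_nonneg (α := ℝ) L])
  have h1 : (s : ℝ) + 1 ≤ (C + 1) * ((L : ℝ) + 1) ^ 4 := by nlinarith
  have h2 : ((s : ℝ) + 1) ^ d ≤ ((C + 1) * ((L : ℝ) + 1) ^ 4) ^ d :=
    pow_le_pow_left₀ (by positivity) h1 d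
  have h3 : (2 : ℝ) ^ L ≤ K * ((C + 1) ^ d * ((L : ℝ) + 1) ^ (4 * d)) := by
    calc (2 : ℝ) ^ L ≤ p.eval (s : ℝ) := hps
      _ ≤ K * ((s : ℝ) + 1) ^ d := hp s (Nat.cast_nonneg s)
      _ ≤ K * ((C + 1) * ((L : ℝ) + 1) ^ 4) ^ d := mul_le_mul_of_nonneg_left h2 hK
      _ = _ := by rw [mul_pow, ← pow_mul]
  have hn' : ((L : ℝ) + 1) ^ (4 * d) / 2 ^ (L + 1) < 1 / (2 * (K * (C + 1) ^ d) + 1) := by
    exact_mod_cast hn
  rw [div_lt_div_iff₀ (by positivity) (by positivity)] at hn'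
  have h4 : (0 : ℝ) < ((L : ℝ) + 1) ^ (4 * d) := by positivity
  have h5 : (2 : ℝ) ^ (L + 1) = 2 * 2 ^ L := by ring
  nlinarith

end Vale.Agent.P343
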