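import Vale.Agent.P343.Hat2

/-! P343, module M5: the outer lemma. -/

namespace Vale.Agent.P343

variable {Q : Type}

namespace OuterAux

theorem fn_sided {b : Bool} {F G : Beh Q} (hF : Fn F) (hG : Fn G) (d : Bool) :
    Fn (sided b F G d) := by
  unfold sided
  split_ifs
  · exact hF
  · exact hG

theorem fn_Bp {B : Bool → Beh Q} {F : Beh Q} (hB : ∀ d, Fn (B d)) (hF : Fn F) (b d : Bool) :
    Fn (Bp B F b d) := by
  unfold Bp
  split_ifs
  · exact hB b
  · exact Star.fn (fn_sided hF (hB (!b)))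

theorem T3_fn {B : Bool → Beh Q} {F : Beh Q} (hB : ∀ d, Fn (B d)) (hF : Fn F) {b : Bool}
    {x y z : Lab Q} (h1 : T3 B F b x y) (h2 : T3 B F b x z) : y = z :=
  Mid.fn (fn_Bp hB hF b) ((T3_iff_mid B F b).1 h1) ((T3_iff_mid B F b).1 h2)

theorem T3_first {B : Bool → Beh Q} {F : Beh Q} {b : Bool} {x y : Lab Q}
    (h : T3 B F b x y) (hx : x.1 = !b) :
    ∃ w : Lab Q, F x w ∧ ((w.1 = (!b) ∧ T3 B F (!b) w y) ∨ (w.1 = b ∧ T3 B F b w y)) := by
  cases h with
  | out h => simp at hx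
  | outback h _ => simp at hx
  | thru h h2 => exact ⟨_, h, Or.inl ⟨rfl, h2⟩⟩
  | inback h h2 => exact ⟨_, h, Or.inr ⟨rfl, h2⟩⟩

theorem T3_swap {B : Bool → Beh Q} {F : Beh Q} {b : Bool} {q r : Q} {y : Lab Q}
    (hsw : ∀ w, F (!b, q) w → F (!b, r) w) (h : T3 B F b (!b, q) y) : T3 B F b (!b, r) y := by
  obtain ⟨⟨w1, w2⟩, hw, ⟨h1, h2⟩ | ⟨h1, h2⟩⟩ := T3_first h rfl
  · simp only at h1
    subst h1
    exact T3.thru (hsw _ hw) h2
  · simp only at h1
    subst h1
    exact T3.inback (hsw _ hw) h2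

theorem T3_diff {B : Bool → Beh Q} {F F' : Beh Q} {b : Bool} {x y : Lab Q}
    (h : T3 B F b x y) : T3 B F' b x y ∨
      ∃ c q w, F (!c, q) w ∧ ¬ F' (!c, q) w ∧ T3 B F c (!c, q) y := by
  induction h with
  | out h => exact Or.inl (T3.out h)
  | outback h _ ih =>
    rcases ih with ih | ih
    · exact Or.inl (T3.outback h ih)
    · exact Or.inr ih
  | @thru b q q' y h h2 ih =>
    by_cases hF' : F' (!b, q) (!b, q')
    · rcases ih with ih | ih
      · exact Or.inl (T3.thru hF' ih)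
      · exact Or.inr ih
    · exact Or.inr ⟨b, q, _, h, hF', T3.thru h h2⟩
  | @inback b q q' y h h2 ih =>
    by_cases hF' : F' (!b, q) (b, q')
    · rcases ih with ih | ih
      · exact Or.inl (T3.inback hF' ih)
      · exact Or.inr ih
    · exact Or.inr ⟨b, q, _, h, hF', T3.inback h h2⟩

theorem S3_diff {B : Bool → Beh Q} {F F' : Beh Q} {x y : Lab Q}
    (h : S3 B F x y) : S3 B F' x y ∨
      ∃ c q w, F (!c, q) w ∧ ¬ F' (!c, q) w ∧ T3 B F c (!c, q) y := by
  cases h with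
  | bounce h => exact Or.inl (S3.bounce h)
  | enter h h2 =>
    rcases T3_diff (F' := F') h2 with h3 | h3
    · exact Or.inl (S3.enter h h3)
    · exact Or.inr h3

/-- a point where `F` and `F'` differ is entered past `e` -/
theorem diff_pt {e F F' : Beh Q} (he : Idem e) (hF : IsIn e F) (hF' : IsIn e F')
    {v w : Lab Q} (h1 : F v w) (h2 : ¬ F' v w) :
    ∃ ξ : Me e, ξ.1.1 = v.1 ∧ e v ξ.1 ∧ H e F ξ ≠ H e F' ξ := by
  by_cases hx : ∃ y, e v y
  · obtain ⟨y, hy⟩ := hx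
    by_cases hd : y.1 = v.1
    · have hm : y ∈ Ms e := ⟨v, hd.symm, hy⟩
      refine ⟨⟨y, hm⟩, hd, hy, fun heq => ?_⟩
      apply h2
      rw [H_iff he hF' (η := ⟨y, hm⟩) hd.symm hy w, ← heq]
      exact (H_iff he hF (η := ⟨y, hm⟩) hd.symm hy w).1 h1
    · exfalso
      apply h2
      rw [F_rev he hF' hy hd]
      exact (F_rev he hF hy hd w).1 h1
  · push Not at hx
    exact absurd h1 (F_undef he hF hx w)

end OuterAux

open OuterAux

/-- If `P * F * S` is of group type on `Me E`, then replacing `F` by `F'` changes its hat in at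
most `dist e F F'` places. -/
theorem outer [Finite Q] {E e P F F' S A' : Beh Q} (hE : Idem E) (he : Idem e) (hP : Fn P)
    (hS : Fn S) (hF : IsIn e F) (hF' : IsIn e F') (hA : Grp E (P * F * S) A')
    (hB : IsIn E (P * F' * S)) : dist E (P * F * S) (P * F' * S) ≤ dist e F F' := by
  obtain ⟨π, hπ, _⟩ := exists_perm hE hA
  have hPS : ∀ d, Fn (two P S d) := Fn.two hP hS
  have key : ∀ η : Me E, H E (P * F * S) η ≠ H E (P * F' * S) η →
      ∃ ξ : Me e, H e F ξ ≠ H e F' ξ ∧ ∃ c q, ξ.1.1 = (!c) ∧ e (!c, q) ξ.1 ∧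
        T3 (two P S) F c (!c, q) (π η).1 := by
    intro η hη
    obtain ⟨x, hx1, hx2⟩ := η.2
    have h1 : (P * F * S) x (π η).1 :=
      (H_iff hE hA.memL hx1 hx2 _).2 ⟨(π η).2, (hπ η).1⟩
    rw [mul_left_iff] at h1
    rcases S3_diff (F' := F') h1 with h2 | ⟨c, q, w, h2, h3, h4⟩
    · exfalso
      apply hη
      rw [← mul_left_iff] at h2
      obtain ⟨h5, h6⟩ := (H_iff hE hB hx1 hx2 _).1 h2
      rw [h6, (hπ η).1]
    · obtain ⟨ξ, k1, k2, k3⟩ := diff_pt he hF hF' h2 h3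
      exact ⟨ξ, k3, c, q, k1, k2, h4⟩
  rcases isEmpty_or_nonempty (Me e) with hemp | hne
  · have h0 : {η : Me E | H E (P * F * S) η ≠ H E (P * F' * S) η} = ∅ := by
      ext η
      simp only [Set.mem_ofPred_eq, Set.mem_empty_iff_false, iff_false]
      intro hη
      obtain ⟨ξ, _⟩ := key η hη
      exact hemp.elim ξ
    unfold dist
    rw [h0, Set.ncard_empty]
    exact Nat.zero_le _
  choose! f hf1 hf2 using key
  unfold dist
  refine Set.ncard_le_ncard_of_injOn f (fun η hη => hf1 η hη) ?_ (Set.toFinite _)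
  intro η1 h1 η2 h2 heq
  obtain ⟨c, q, a1, a2, a3⟩ := hf2 η1 h1
  obtain ⟨c', q', b1, b2, b3⟩ := hf2 η2 h2
  rw [← heq] at b1 b2
  have hcc : c = c' := by
    rw [a1] at b1
    cases c <;> cases c' <;> simp_all
  subst hcc
  have hsw : ∀ w, F (!c, q) w → F (!c, q') w := by
    intro w hw
    exact (H_iff he hF (η := f η1) b1.symm b2 w).2 ((H_iff he hF (η := f η1) a1.symm a2 w).1 hw)
  have h3 := T3_fn hPS hF.fn (T3_swap hsw a3) b3
  exact π.injective (Subtype.ext h3)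

end Vale.Agent.P343
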